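import Vale.Agent.P196.Flux.Block

/-!
# P196, C7: chart lifts inside a square, agreement and commutation of the canonical lifts
-/

namespace Vale.Agent.P196.Flux.Grid

open Equiv Simple

set_option linter.unusedSectionVars false

variable {X : Type} [TopologicalSpace X] [AddAction Cell X] [ContinuousConstVAdd Cell X]
  [CompactSpace X] [T2Space X] {m : ℕ} {G : Type*} [Group G] (L : Lift X m G) {P : ℕ}
  (Γ : Grid X P) (o : Cell)

private theorem ediv_eq_of_range {a b P : ℤ} (hP : 0 < P) (h : 0 ≤ a % P + (b - a))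
    (h' : a % P + (b - a) < P) : b / P = a / P := by
  have e : b = (a % P + (b - a)) + a / P * P := by linarith [Int.emod_add_mul_ediv a P]
  conv_lhs => rw [e]
  rw [Int.add_mul_ediv_right _ _ hP.ne', Int.ediv_eq_zero_of_lt h h', zero_add]

private theorem range_of_ediv_eq {a b P : ℤ} (hP : 0 < P) (h : b / P = a / P) :
    0 ≤ a % P + (b - a) ∧ a % P + (b - a) < P := by
  have e : a % P + (b - a) = b % P := by
    rw [Int.emod_def, Int.emod_def, h]; ring
  rw [e]
  exact ⟨Int.emod_nonneg _ hP.ne', Int.emod_lt_of_pos _ hP⟩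

private theorem lift_eq_lft_aux (hf : Free X) {T : Type} [Finite T] (c : Chart Cell X m T)
    (k : Cell) (hk : ∀ x ∈ c.base, Γ.crd o x = k) (σ : Perm T) (h : c.perm σ ∈ Γ.Blk o) :
    L.lift c σ = Γ.lft L o (c.perm σ) := by
  classical
  rcases c.base.eq_empty_or_nonempty with he | ⟨x0, hx0⟩
  · have e : c.perm σ = 1 := Equiv.ext fun p => c.perm_of_not σ (by simp [he])
    rw [e, lft_one, lift_eq_one_of_empty L c he]
  have hP : (0 : ℤ) < P := Γ.pos' x0
  let lam : T → Cell := fun a =>
    ((k.1 + (c.slot a).1.1) / (P : ℤ), (k.2 + (c.slot a).1.2) / (P : ℤ))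
  have crdpt : ∀ a, ∀ x ∈ c.base, Γ.crd o (c.pt a x).1 =
      ((k.1 + (c.slot a).1.1) % (P : ℤ), (k.2 + (c.slot a).1.2) % (P : ℤ)) := fun a x hx => by
    rw [Chart.pt, Γ.crd_vadd, hk x hx]
  have diff : ∀ a b, ∀ x : X,
      (c.pt b x).1 = ((c.slot b).1 - (c.slot a).1) +ᵥ (c.pt a x).1 := fun a b x => by
    simp only [Chart.pt, ← add_vadd, sub_add_cancel]
  have hclass : ∀ a, σ a ≠ a → lam (σ a) = lam a := by
    intro a _
    have e : (c.perm σ (c.pt a x0)).1 = ((c.slot (σ a)).1 - (c.slot a).1) +ᵥ (c.pt a x0).1 := by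
      rw [c.perm_pt σ a hx0]; exact diff a (σ a) x0
    obtain ⟨h1, h2⟩ := range_of_mem hf h e
    rw [crdpt a x0 hx0] at h1 h2
    simp only [Prod.fst_sub, Prod.snd_sub] at h1 h2
    exact Prod.ext
      (ediv_eq_of_range hP (by linarith [h1.1]) (by linarith [h1.2]))
      (ediv_eq_of_range hP (by linarith [h2.1]) (by linarith [h2.2]))
  have hmem : ∀ τ : Perm T, (∀ a, τ a ≠ a → lam (τ a) = lam a) → c.perm τ ∈ Γ.Blk o := by
    intro τ hτ
    refine mem_blk (continuous_chartPerm c τ) fun p hp => ?_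
    obtain ⟨a, x, hx, rfl⟩ : ∃ a, ∃ x ∈ c.base, c.pt a x = p := by
      by_contra hne
      push Not at hne
      exact hp (c.perm_of_not τ hne)
    rw [c.perm_pt τ a hx] at hp ⊢
    have hm : τ a ≠ a := fun e => hp (by rw [e])
    refine ⟨(c.slot (τ a)).1 - (c.slot a).1, diff a (τ a) x, ?_⟩
    rw [crdpt a x hx]
    simp only [Prod.fst_sub, Prod.snd_sub]
    have h1 := range_of_ediv_eq hP (congrArg Prod.fst (hτ a hm))
    have h2 := range_of_ediv_eq hP (congrArg Prod.snd (hτ a hm))
    omega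
  suffices H : ∀ τ : Perm T, (∀ a, τ a ≠ a → lam (τ a) = lam a) →
      L.lift c τ = Γ.lft L o (c.perm τ) from H σ hclass
  intro τ
  induction τ using Equiv.Perm.cycle_induction_on with
  | base_one => intro _; rw [map_one, map_one, lft_one]
  | base_cycles τ hcyc =>
    intro hτ
    obtain ⟨a0, ha0, -⟩ := id hcyc
    have hall : ∀ i : ℕ, lam ((τ ^ i) a0) = lam a0 := by
      intro i
      induction i with
      | zero => simp
      | succ i ih =>
        rw [pow_succ', Perm.mul_apply]
        by_cases hi : τ ((τ ^ i) a0) = (τ ^ i) a0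
        · rw [hi, ih]
        · rw [hτ _ hi, ih]
    have hsame : ∀ b, τ b ≠ b → lam b = lam a0 := fun b hb => by
      obtain ⟨i, hi⟩ := hcyc.exists_pow_eq ha0 hb
      rw [← hi]; exact hall i
    have hS : ∀ t, lam (τ t) = lam a0 ↔ lam t = lam a0 := fun t => by
      by_cases ht : τ t = t
      · rw [ht]
      · rw [hτ t ht]
    let emb : {t // lam t = lam a0} ↪ T := Function.Embedding.subtype _
    let τS : Perm {t // lam t = lam a0} := τ.subtypePerm hS
    have hvia : Perm.viaEmbedding τS emb = τ := by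
      refine Equiv.ext fun t => ?_
      by_cases ht : lam t = lam a0
      · exact Perm.viaEmbedding_apply τS emb ⟨t, ht⟩
      · rw [Perm.viaEmbedding_apply_of_notMem τS emb t fun ⟨s, hs⟩ => ht (hs ▸ s.2)]
        by_contra hne
        exact ht (hsame t fun e => hne e.symm)
    let w : Cell := ((P : ℤ) * (lam a0).1 - k.1, (P : ℤ) * (lam a0).2 - k.2)
    let V : Set X := (fun y => (-w) +ᵥ y) ⁻¹' c.base
    have hV : IsClopen V := c.clopen.preimage (continuous_const_vadd _)
    have hVb : V ⊆ (Γ.dom o (m := m)).base := fun y hy => by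
      show Γ.crd o y = 0
      rw [← vadd_neg_vadd w y, Γ.crd_vadd, hk _ hy]
      simp [w]
    have key : ∀ s : {t // lam t = lam a0}, Γ.crd o (c.pt s.1 x0).1 = (c.slot s.1).1 - w := by
      intro s
      rw [crdpt _ _ hx0]
      have e1 := congrArg Prod.fst s.2
      have e2 := congrArg Prod.snd s.2
      simp only [lam] at e1 e2
      refine Prod.ext ?_ ?_ <;> simp only [Prod.fst_sub, Prod.snd_sub, w, lam, Int.emod_def]
      · rw [e1]; ring
      · rw [e2]; ring
    let f' : {t // lam t = lam a0} ↪ (Fin P × Fin P) × Fin m :=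
      ⟨fun s => Γ.slotOf o (c.pt s.1 x0), fun s s' e => by
        have e1 := congrArg (fun t : (Fin P × Fin P) × Fin m => ((t.1.1.val : ℤ), (t.1.2.val : ℤ))) e
        have e2 : (c.pt s.1 x0).2 = (c.pt s'.1 x0).2 :=
          congrArg (fun t : (Fin P × Fin P) × Fin m => t.2) e
        have hs := Γ.crd_mem o (c.pt s.1 x0).1
        have hs' := Γ.crd_mem o (c.pt s'.1 x0).1
        simp only [slotOf, Prod.mk.injEq, Int.toNat_of_nonneg hs.1.1, Int.toNat_of_nonneg hs.2.1,
          Int.toNat_of_nonneg hs'.1.1, Int.toNat_of_nonneg hs'.2.1] at e1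
        have e3 : (c.slot s.1).1 - w = (c.slot s'.1).1 - w := by
          rw [← key s, ← key s']; exact Prod.ext e1.1 e1.2
        have e4 : (c.slot s.1).1 = (c.slot s'.1).1 := by simpa using e3
        exact Subtype.ext (c.disj _ _ x0 hx0 x0 hx0 e2 (by rw [e4]))⟩
    let d : Chart Cell X m {t // lam t = lam a0} := ((Γ.dom o).restrict V hV hVb).comap f'
    have hd : L.lift d = L.lift (c.comap emb) := by
      refine L.lift_shift (c.comap emb) d w ?_ fun s => ?_
      · show V = (fun x => w +ᵥ x) '' c.base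
        ext y
        simp only [V, Set.mem_preimage, Set.mem_image]
        constructor
        · exact fun hy => ⟨_, hy, vadd_neg_vadd w y⟩
        · rintro ⟨x, hx, rfl⟩
          rwa [neg_vadd_vadd]
      · have hs := Γ.crd_mem o (c.pt s.1 x0).1
        show (((((Γ.crd o (c.pt s.1 x0).1).1.toNat : ℕ) : ℤ),
          (((Γ.crd o (c.pt s.1 x0).1).2.toNat : ℕ) : ℤ)), (c.slot s.1).2) = _
        rw [Int.toNat_of_nonneg hs.1.1, Int.toNat_of_nonneg hs.2.1]
        exact Prod.ext (key s) rfl
    have e1 : L.lift c τ = fieldHom L (Γ.dom o) (indicator V hV (Perm.viaEmbedding τS f')) := by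
      rw [fieldHom_indicator L (Γ.dom o) V hV hVb, ← L.lift_comap]
      show L.lift c τ = L.lift d τS
      rw [hd, L.lift_comap, hvia]
    obtain ⟨-, e2⟩ := Γ.fieldHom_eq_lft L o (indicator V hV (Perm.viaEmbedding τS f')) fun x hx => by
      show (if x ∈ V then _ else (1 : Perm ((Fin P × Fin P) × Fin m))) = 1
      rw [if_neg fun h => hx (hVb h)]
    rw [← e1, L.toPerm_lift] at e2
    exact e2
  | induction_disjoint σ τ hd _ ih1 ih2 =>
    intro hτ
    have h1 : ∀ a, σ a ≠ a → lam (σ a) = lam a := fun a ha => by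
      have := (hd a).resolve_left ha
      have h' := hτ a (by rw [Perm.mul_apply, this]; exact ha)
      rwa [Perm.mul_apply, this] at h'
    have h2 : ∀ a, τ a ≠ a → lam (τ a) = lam a := fun a ha => by
      have := (hd (τ a)).resolve_right fun e => ha (τ.injective e)
      have h' := hτ a (by rw [Perm.mul_apply, this]; exact ha)
      rwa [Perm.mul_apply, this] at h'
    rw [map_mul, map_mul, ih1 h1, ih2 h2, Γ.lft_mul L o (hmem σ h1) (hmem τ h2)]

/-- A chart lift whose permutation preserves the squares is the canonical lift. -/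
theorem lift_eq_lft (hf : Free X) {T : Type} [Finite T] (c : Chart Cell X m T) (σ : Perm T)
    (h : c.perm σ ∈ Γ.Blk o) : L.lift c σ = Γ.lft L o (c.perm σ) := by
  classical
  let φ : LocallyConstant X (Fin P × Fin P) :=
    ⟨fun x => (⟨(Γ.crd o x).1.toNat, by have := Γ.crd_mem o x; omega⟩,
      ⟨(Γ.crd o x).2.toNat, by have := Γ.crd_mem o x; omega⟩), by
      refine (IsLocallyConstant.iff_eventually_eq _).2 fun x => ?_
      filter_upwards [(IsLocallyConstant.iff_eventually_eq _).1 (Γ.isLocallyConstant_crd o) x]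
        with y hy
      simp only [hy]⟩
  have e : part L c φ (fun _ => σ) = L.lift c σ := by
    have := part_indicator L c φ Finset.univ σ c.base c.clopen subset_rfl (by simp)
    rw [show (fun k : Fin P × Fin P => if k ∈ Finset.univ then σ else 1) = fun _ => σ by simp] at this
    exact this
  have hp : L.toPerm (part L c φ fun _ => σ) = c.perm σ := by rw [e, L.toPerm_lift]
  rw [← e, ← hp]
  refine part_eq_lft L Γ o c φ _ (by rw [hp]; exact h) fun k hk => ?_
  refine Γ.lift_eq_lft_aux L o hf _ ((k.1.val : ℤ), (k.2.val : ℤ)) (fun x hx => ?_) _ hk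
  have h1 : φ x = k := hx.2
  have := Γ.crd_mem o x
  rw [← h1]
  refine Prod.ext ?_ ?_ <;> simp [φ, Int.toNat_of_nonneg, this.1.1, this.2.1]

/-- The canonical lifts agree on intersections. -/
theorem lft_agree (hf : Free X) {o' : Cell} {g : Perm (X × Fin m)} (h : g ∈ Γ.Blk o)
    (h' : g ∈ Γ.Blk o') : Γ.lft L o g = Γ.lft L o' g := by
  have hp : L.toPerm (part L (Γ.dom o) (Γ.fieldMap o ⟨g, h⟩) id) = g := by
    rw [← fieldHom_apply, ← Γ.lft_of_mem L o h, Γ.toPerm_lft L o h]
  conv_lhs => rw [Γ.lft_of_mem L o h, fieldHom_apply]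
  refine (part_eq_lft L Γ o' (Γ.dom o) _ id (by rw [hp]; exact h') fun k hk =>
    Γ.lift_eq_lft L o' hf _ _ hk).trans ?_
  rw [hp]

/-- Lifts with disjoint moved points commute. -/
theorem lft_commute {o' : Cell} {g g' : Perm (X × Fin m)} (h : g ∈ Γ.Blk o) (h' : g' ∈ Γ.Blk o')
    (hd : ∀ p, g p = p ∨ g' p = p) : Commute (Γ.lft L o g) (Γ.lft L o' g') := by
  rw [Γ.lft_of_mem L o' h', fieldHom_apply]
  refine part_commute L _ _ _ _ fun k => ?_
  rw [Γ.lft_of_mem L o h, fieldHom_apply]
  refine (part_commute L _ _ _ _ fun l => ?_).symm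
  refine L.lift_commute _ _ _ _ fun a b ha hb x hx y hy e => ?_
  have moved : ∀ (q : Cell) (u : Perm (X × Fin m)) (hu : u ∈ Γ.Blk q)
      (j : Perm ((Fin P × Fin P) × Fin m)) (t : (Fin P × Fin P) × Fin m) (z : X), j t ≠ t →
      z ∈ (fibre (Γ.dom q (m := m)) (Γ.fieldMap q ⟨u, hu⟩) j).base → u ((Γ.dom q).pt t z) ≠
        (Γ.dom q).pt t z := by
    intro q u hu j t z hj hz heq
    apply hj
    have hz2 : Γ.field q ⟨u, hu⟩ z = j := hz.2
    rw [← hz2, Γ.field_apply q _ hz.1, heq, Γ.slotOf_pt q t hz.1]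
  have e' : (Γ.dom o').pt a x = (Γ.dom o).pt b y := e
  rcases hd ((Γ.dom o).pt b y) with e1 | e1
  · exact moved o g h l b y hb hy e1
  · rw [← e'] at e1
    exact moved o' g' h' k a x ha hx e1

end Vale.Agent.P196.Flux.Grid
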