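import Vale.Agent.P196.Flux.Field
import Vale.Agent.P196.Simple.Basic

/-!
# P196, C7: groups of permutations preserving the squares of a shifted grid

`Blk o` consists of the continuous permutations preserving every square of side `P` of the grid
shifted by `o`. It lifts canonically, the lifts agree on intersections, and lifts with disjoint
moved points commute.
-/

namespace Vale.Agent.P196.Flux

open Equiv Simple

set_option linter.unusedSectionVars false

variable {X : Type} [TopologicalSpace X] [AddAction Cell X] [ContinuousConstVAdd Cell X]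
  [CompactSpace X] [T2Space X] {m : ℕ} {G : Type*} [Group G] (L : Lift X m G) {P : ℕ}

/-- Translations move every point. -/
def Free (X : Type) [AddAction Cell X] : Prop := ∀ (v : Cell) (x : X), v +ᵥ x = x → v = 0

theorem Free.vadd_inj (hf : Free X) {v w : Cell} {x : X} (h : v +ᵥ x = w +ᵥ x) : v = w := by
  have h0 : (-w + v) +ᵥ x = x := by rw [add_vadd, h, neg_vadd_vadd]
  have h1 := hf _ x h0
  rw [neg_add_eq_zero] at h1
  exact h1.symm

theorem continuous_chartPerm {T : Type} [Finite T] (c : Chart Cell X m T) (σ : Perm T) :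
    Continuous (c.perm σ : X × Fin m → X × Fin m) := by
  refine continuous_iff_continuousAt.2 fun p => ?_
  obtain ⟨U, hU, hp, q, hq⟩ := Chart.perm_isLocTrans c σ p
  have hev : (c.perm σ : X × Fin m → X × Fin m) =ᶠ[nhds p] fun y => (q.1 +ᵥ y.1, q.2) := by
    filter_upwards [(hU.prod (isOpen_discrete {p.2})).mem_nhds ⟨hp, rfl⟩] with y hy
    obtain ⟨y1, y2⟩ := y
    obtain ⟨h1, rfl⟩ := hy
    exact hq y1 h1
  exact (((continuous_const_vadd q.1).comp continuous_fst).prodMk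
    continuous_const).continuousAt.congr hev.symm

theorem continuous_toPerm (g : G) : Continuous (L.toPerm g : X × Fin m → X × Fin m) := by
  let H : Subgroup G :=
    { carrier := {g | Continuous (L.toPerm g : X × Fin m → X × Fin m)}
      one_mem' := by
        show Continuous (L.toPerm 1 : X × Fin m → X × Fin m)
        rw [map_one]; exact continuous_id
      mul_mem' := fun {a b} ha hb => by
        show Continuous (L.toPerm (a * b) : X × Fin m → X × Fin m)
        rw [map_mul]; exact ha.comp hb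
      inv_mem' := fun {a} ha => by
        show Continuous (L.toPerm a⁻¹ : X × Fin m → X × Fin m)
        rw [map_inv]
        exact ha.continuous_symm_of_equiv_compact_to_t2 (f := L.toPerm a) }
  suffices h : H = ⊤ from (h ▸ Subgroup.mem_top g : g ∈ H)
  rw [eq_top_iff, ← L.generated, Subgroup.closure_le]
  rintro _ ⟨c, rfl⟩
  show Continuous (L.toPerm (L.lift c _) : X × Fin m → X × Fin m)
  rw [L.toPerm_lift]
  exact continuous_chartPerm c _

namespace Grid

variable (Γ : Grid X P) (o : Cell)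

theorem pos' (Γ : Grid X P) (x : X) : 0 < (P : ℤ) := lt_of_le_of_lt (Γ.mem x).1.1 (Γ.mem x).1.2

/-- The position inside the square of the grid shifted by `o`. -/
def crd (x : X) : Cell := (((Γ.pos x).1 - o.1) % (P : ℤ), ((Γ.pos x).2 - o.2) % (P : ℤ))

theorem crd_mem (x : X) : (0 ≤ (Γ.crd o x).1 ∧ (Γ.crd o x).1 < P) ∧
    (0 ≤ (Γ.crd o x).2 ∧ (Γ.crd o x).2 < P) :=
  ⟨⟨Int.emod_nonneg _ (Γ.pos' x).ne', Int.emod_lt_of_pos _ (Γ.pos' x)⟩,
    ⟨Int.emod_nonneg _ (Γ.pos' x).ne', Int.emod_lt_of_pos _ (Γ.pos' x)⟩⟩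

theorem crd_vadd (v : Cell) (x : X) :
    Γ.crd o (v +ᵥ x) = (((Γ.crd o x).1 + v.1) % (P : ℤ), ((Γ.crd o x).2 + v.2) % (P : ℤ)) := by
  simp only [crd, Γ.pos_vadd, Int.emod_sub_emod, Int.emod_add_emod]
  congr 2 <;> ring

theorem crd_vadd_of_mem (v : Cell) (x : X)
    (h1 : 0 ≤ (Γ.crd o x).1 + v.1 ∧ (Γ.crd o x).1 + v.1 < P)
    (h2 : 0 ≤ (Γ.crd o x).2 + v.2 ∧ (Γ.crd o x).2 + v.2 < P) :
    Γ.crd o (v +ᵥ x) = Γ.crd o x + v := by
  rw [Γ.crd_vadd, Int.emod_eq_of_lt h1.1 h1.2, Int.emod_eq_of_lt h2.1 h2.2]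
  rfl

theorem isLocallyConstant_crd : IsLocallyConstant (Γ.crd o) :=
  Γ.loc.comp fun z : Cell => ((z.1 - o.1) % (P : ℤ), (z.2 - o.2) % (P : ℤ))

/-- The lower left corner of the square. -/
def anc (x : X) : X := (-Γ.crd o x) +ᵥ x

theorem vadd_anc (x : X) : Γ.crd o x +ᵥ Γ.anc o x = x := vadd_neg_vadd _ x

theorem crd_anc (x : X) : Γ.crd o (Γ.anc o x) = 0 := by
  have := Γ.crd_mem o x
  rw [anc, Γ.crd_vadd_of_mem o _ x (by simp; omega) (by simp; omega), add_neg_cancel]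

theorem anc_vadd (v : Cell) (x : X)
    (h1 : 0 ≤ (Γ.crd o x).1 + v.1 ∧ (Γ.crd o x).1 + v.1 < P)
    (h2 : 0 ≤ (Γ.crd o x).2 + v.2 ∧ (Γ.crd o x).2 + v.2 < P) :
    Γ.anc o (v +ᵥ x) = Γ.anc o x := by
  rw [anc, anc, Γ.crd_vadd_of_mem o v x h1 h2, ← add_vadd]
  congr 1
  abel

/-- The squares as a chart. -/
def dom : Chart Cell X m ((Fin P × Fin P) × Fin m) where
  base := {x | Γ.crd o x = 0}
  clopen := (Γ.isLocallyConstant_crd o).isClopen_fiber 0
  slot t := (((t.1.1.val : ℤ), (t.1.2.val : ℤ)), t.2)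
  disj := by
    rintro ⟨⟨a1, a2⟩, i⟩ ⟨⟨b1, b2⟩, j⟩ x hx y hy h1 h2
    simp only [Set.mem_ofPred_eq] at hx hy
    have e := congrArg (Γ.crd o) h2
    have := a1.isLt
    have := a2.isLt
    have := b1.isLt
    have := b2.isLt
    rw [Γ.crd_vadd_of_mem o _ x (by simp [hx]) (by simp [hx]),
      Γ.crd_vadd_of_mem o _ y (by simp [hy]) (by simp [hy]), hx, hy] at e
    simp only [zero_add, Prod.mk.injEq, Nat.cast_inj] at e
    exact Prod.ext (Prod.ext (Fin.ext e.1) (Fin.ext e.2)) h1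

/-- The slot of a point. -/
def slotOf (p : X × Fin m) : (Fin P × Fin P) × Fin m :=
  ((⟨(Γ.crd o p.1).1.toNat, by have := Γ.crd_mem o p.1; omega⟩,
    ⟨(Γ.crd o p.1).2.toNat, by have := Γ.crd_mem o p.1; omega⟩), p.2)

theorem pt_slotOf (p : X × Fin m) : (Γ.dom o).pt (Γ.slotOf o p) (Γ.anc o p.1) = p := by
  have h := Γ.crd_mem o p.1
  refine Prod.ext ?_ rfl
  show ((((Γ.crd o p.1).1.toNat : ℕ) : ℤ), (((Γ.crd o p.1).2.toNat : ℕ) : ℤ)) +ᵥ _ = p.1
  rw [Int.toNat_of_nonneg h.1.1, Int.toNat_of_nonneg h.2.1]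
  exact Γ.vadd_anc o p.1

theorem anc_mem (x : X) : Γ.anc o x ∈ (Γ.dom o (m := m)).base := Γ.crd_anc o x

theorem crd_pt (t : (Fin P × Fin P) × Fin m) {x : X} (hx : x ∈ (Γ.dom o (m := m)).base) :
    Γ.crd o ((Γ.dom o).pt t x).1 = ((t.1.1.val : ℤ), (t.1.2.val : ℤ)) := by
  obtain ⟨⟨a1, a2⟩, i⟩ := t
  have hx : Γ.crd o x = 0 := hx
  have := a1.isLt
  have := a2.isLt
  show Γ.crd o (((a1.val : ℤ), (a2.val : ℤ)) +ᵥ x) = _
  rw [Γ.crd_vadd_of_mem o _ x (by simp [hx]) (by simp [hx]), hx, zero_add]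

theorem slotOf_pt (t : (Fin P × Fin P) × Fin m) {x : X} (hx : x ∈ (Γ.dom o (m := m)).base) :
    Γ.slotOf o ((Γ.dom o).pt t x) = t := by
  obtain ⟨⟨a1, a2⟩, i⟩ := t
  have h := Γ.crd_pt o ((a1, a2), i) hx
  simp only [slotOf]
  refine Prod.ext (Prod.ext (Fin.ext ?_) (Fin.ext ?_)) rfl <;> simp [h]

theorem anc_pt (t : (Fin P × Fin P) × Fin m) {x : X} (hx : x ∈ (Γ.dom o (m := m)).base) :
    Γ.anc o ((Γ.dom o).pt t x).1 = x := by
  rw [anc, Γ.crd_pt o t hx]
  exact neg_vadd_vadd _ x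

/-- Continuous permutations preserving every square. -/
def Blk : Subgroup (Perm (X × Fin m)) where
  carrier := {g | Continuous (g : X × Fin m → X × Fin m) ∧
    ∀ p, Γ.anc o (g p).1 = Γ.anc o p.1}
  one_mem' := ⟨continuous_id, fun _ => rfl⟩
  mul_mem' := fun {g h} hg hh => ⟨hg.1.comp hh.1, fun p => (hg.2 (h p)).trans (hh.2 p)⟩
  inv_mem' := fun {g} hg => ⟨hg.1.continuous_symm_of_equiv_compact_to_t2 (f := g), fun p => by
    have := hg.2 (g⁻¹ p)
    rw [Perm.inv_def, Equiv.apply_symm_apply] at this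
    exact this.symm⟩

variable {Γ o}

/-- A criterion: every point moves inside its square. -/
theorem mem_blk {g : Perm (X × Fin m)} (hg : Continuous (g : X × Fin m → X × Fin m))
    (h : ∀ p, g p ≠ p → ∃ v : Cell, (g p).1 = v +ᵥ p.1 ∧
      (0 ≤ (Γ.crd o p.1).1 + v.1 ∧ (Γ.crd o p.1).1 + v.1 < P) ∧
      (0 ≤ (Γ.crd o p.1).2 + v.2 ∧ (Γ.crd o p.1).2 + v.2 < P)) : g ∈ Γ.Blk o := by
  refine ⟨hg, fun p => ?_⟩
  by_cases hp : g p = p
  · rw [hp]
  · obtain ⟨v, hv, h1, h2⟩ := h p hp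
    rw [hv, Γ.anc_vadd o v _ h1 h2]

theorem range_of_mem (hf : Free X) {g : Perm (X × Fin m)} (hg : g ∈ Γ.Blk o) {p : X × Fin m}
    {v : Cell} (hv : (g p).1 = v +ᵥ p.1) :
    (0 ≤ (Γ.crd o p.1).1 + v.1 ∧ (Γ.crd o p.1).1 + v.1 < P) ∧
      (0 ≤ (Γ.crd o p.1).2 + v.2 ∧ (Γ.crd o p.1).2 + v.2 < P) := by
  have e : (-Γ.crd o (g p).1 + v) +ᵥ p.1 = (-Γ.crd o p.1) +ᵥ p.1 := by
    rw [add_vadd, ← hv]; exact hg.2 p
  have h := hf.vadd_inj e
  have := Γ.crd_mem o (g p).1
  rw [Prod.ext_iff] at h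
  simp only [Prod.fst_add, Prod.snd_add, Prod.fst_neg, Prod.snd_neg] at h
  omega

theorem pt_anc_of_mem {g : Perm (X × Fin m)} (hg : g ∈ Γ.Blk o) (p : X × Fin m) :
    (Γ.dom o).pt (Γ.slotOf o (g p)) (Γ.anc o p.1) = g p := by
  rw [← hg.2 p]; exact Γ.pt_slotOf o (g p)

variable (Γ o)

/-- The field of slot permutations of a member. -/
def fieldPerm (g : Γ.Blk o (m := m)) (x : X) (hx : Γ.crd o x = 0) :
    Perm ((Fin P × Fin P) × Fin m) where
  toFun t := Γ.slotOf o (g.1 ((Γ.dom o).pt t x))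
  invFun t := Γ.slotOf o (g.1⁻¹ ((Γ.dom o).pt t x))
  left_inv t := by
    have e := pt_anc_of_mem g.2 ((Γ.dom o).pt t x)
    rw [Γ.anc_pt o t hx] at e
    simp only [e, Perm.inv_def, Equiv.symm_apply_apply, Γ.slotOf_pt o t hx]
  right_inv t := by
    have e := pt_anc_of_mem (inv_mem g.2) ((Γ.dom o).pt t x)
    rw [Γ.anc_pt o t hx] at e
    show Γ.slotOf o (g.1 ((Γ.dom o).pt (Γ.slotOf o (g.1⁻¹ _)) x)) = t
    rw [e, Perm.inv_def, Equiv.apply_symm_apply, Γ.slotOf_pt o t hx]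

/-- The field of a member, trivial off the base. -/
def field (g : Γ.Blk o (m := m)) : LocallyConstant X (Perm ((Fin P × Fin P) × Fin m)) where
  toFun x := if hx : Γ.crd o x = 0 then Γ.fieldPerm o g x hx else 1
  isLocallyConstant := by
    refine (IsLocallyConstant.iff_eventually_eq _).2 fun x => ?_
    have hs : IsLocallyConstant (Γ.slotOf o (m := m)) := by
      refine (IsLocallyConstant.iff_eventually_eq _).2 fun p => ?_
      filter_upwards [((IsLocallyConstant.iff_eventually_eq _).1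
        (((Γ.isLocallyConstant_crd o).comp_continuous continuous_fst).prodMk
          ((IsLocallyConstant.iff_continuous _).2 continuous_snd)) p)] with q hq
      simp only [Prod.mk.injEq, Function.comp] at hq
      simp only [slotOf, hq.1, hq.2]
    have h1 : ∀ t, ∀ᶠ y in nhds x, Γ.slotOf o (g.1 ((Γ.dom o).pt t y)) =
        Γ.slotOf o (g.1 ((Γ.dom o).pt t x)) := fun t =>
      (IsLocallyConstant.iff_eventually_eq _).1 (hs.comp_continuous (g.2.1.comp
        ((continuous_const_vadd _).prodMk continuous_const))) x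
    filter_upwards [Filter.eventually_all.2 h1,
      (IsLocallyConstant.iff_eventually_eq _).1 (Γ.isLocallyConstant_crd o) x] with y hy hc
    by_cases hx : Γ.crd o x = 0
    · rw [dif_pos hx, dif_pos (hc.trans hx)]
      exact Equiv.ext hy
    · rw [dif_neg hx, dif_neg (fun h => hx (hc.symm.trans h))]

theorem field_apply (g : Γ.Blk o (m := m)) {x : X} (hx : x ∈ (Γ.dom o (m := m)).base)
    (t : (Fin P × Fin P) × Fin m) :
    Γ.field o g x t = Γ.slotOf o (g.1 ((Γ.dom o).pt t x)) := by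
  show (if hx : Γ.crd o x = 0 then Γ.fieldPerm o g x hx else 1) t = _
  rw [dif_pos (show Γ.crd o x = 0 from hx)]
  rfl

theorem field_of_not (g : Γ.Blk o (m := m)) {x : X} (hx : x ∉ (Γ.dom o (m := m)).base) :
    Γ.field o g x = 1 :=
  dif_neg (show ¬ Γ.crd o x = 0 from hx)

/-- Fields form a homomorphism. -/
def fieldMap : Γ.Blk o (m := m) →* LocallyConstant X (Perm ((Fin P × Fin P) × Fin m)) :=
  MonoidHom.mk' (Γ.field o) fun g h => LocallyConstant.ext fun x => by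
    by_cases hx : x ∈ (Γ.dom o (m := m)).base
    · refine Equiv.ext fun t => ?_
      rw [LocallyConstant.mul_apply, Perm.mul_apply, Γ.field_apply o _ hx,
        Γ.field_apply o _ hx, Γ.field_apply o _ hx]
      have e := pt_anc_of_mem h.2 ((Γ.dom o).pt t x)
      rw [Γ.anc_pt o t hx] at e
      rw [e, Subgroup.coe_mul, Perm.mul_apply]
    · rw [LocallyConstant.mul_apply, Γ.field_of_not o _ hx, Γ.field_of_not o _ hx,
        Γ.field_of_not o _ hx, one_mul]

open Classical in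
/-- The canonical lift, `1` outside `Blk o`. -/
noncomputable def lft (g : Perm (X × Fin m)) : G :=
  if h : g ∈ Γ.Blk o then fieldHom L (Γ.dom o) (Γ.fieldMap o ⟨g, h⟩) else 1

theorem lft_of_mem {g : Perm (X × Fin m)} (hg : g ∈ Γ.Blk o) :
    Γ.lft L o g = fieldHom L (Γ.dom o) (Γ.fieldMap o ⟨g, hg⟩) := dif_pos hg

theorem lft_one : Γ.lft L o 1 = 1 := by
  rw [Γ.lft_of_mem L o (one_mem _)]
  exact map_one ((fieldHom L (Γ.dom o)).comp (Γ.fieldMap o))

theorem lft_mul {g h : Perm (X × Fin m)} (hg : g ∈ Γ.Blk o) (hh : h ∈ Γ.Blk o) :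
    Γ.lft L o (g * h) = Γ.lft L o g * Γ.lft L o h := by
  rw [Γ.lft_of_mem L o hg, Γ.lft_of_mem L o hh, Γ.lft_of_mem L o (mul_mem hg hh), ← map_mul,
    ← map_mul]
  rfl

theorem lft_inv {g : Perm (X × Fin m)} (hg : g ∈ Γ.Blk o) :
    Γ.lft L o g⁻¹ = (Γ.lft L o g)⁻¹ := by
  refine eq_inv_of_mul_eq_one_left ?_
  rw [← Γ.lft_mul L o (inv_mem hg) hg, inv_mul_cancel, lft_one]

theorem toPerm_lft {g : Perm (X × Fin m)} (hg : g ∈ Γ.Blk o) :
    L.toPerm (Γ.lft L o g) = g := by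
  refine Equiv.ext fun p => ?_
  rw [Γ.lft_of_mem L o hg]
  conv_lhs => rw [← Γ.pt_slotOf o p]
  rw [toPerm_fieldHom L _ _ _ (Γ.anc_mem o p.1)]
  show (Γ.dom o).pt (Γ.field o ⟨g, hg⟩ _ _) _ = _
  rw [Γ.field_apply o _ (Γ.anc_mem o p.1), Γ.pt_slotOf o p, pt_anc_of_mem hg p]

/-- A lifted field supported on the base is the lift of its permutation. -/
theorem fieldHom_eq_lft (f : LocallyConstant X (Perm ((Fin P × Fin P) × Fin m)))
    (hoff : ∀ x, x ∉ (Γ.dom o (m := m)).base → f x = 1) :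
    L.toPerm (fieldHom L (Γ.dom o) f) ∈ Γ.Blk o ∧
      fieldHom L (Γ.dom o) f = Γ.lft L o (L.toPerm (fieldHom L (Γ.dom o) f)) := by
  have happ : ∀ t, ∀ x ∈ (Γ.dom o (m := m)).base, L.toPerm (fieldHom L (Γ.dom o) f)
      ((Γ.dom o).pt t x) = (Γ.dom o).pt (f x t) x := fun t x hx => toPerm_fieldHom L _ f t hx
  have hmem : L.toPerm (fieldHom L (Γ.dom o) f) ∈ Γ.Blk o := by
    refine ⟨continuous_toPerm L _, fun p => ?_⟩
    have h := happ (Γ.slotOf o p) _ (Γ.anc_mem o p.1)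
    rw [Γ.pt_slotOf o p] at h
    rw [h, Γ.anc_pt o _ (Γ.anc_mem o p.1)]
  refine ⟨hmem, ?_⟩
  rw [Γ.lft_of_mem L o hmem]
  congr 1
  refine LocallyConstant.ext fun x => ?_
  by_cases hx : x ∈ (Γ.dom o (m := m)).base
  · refine Equiv.ext fun t => ?_
    show _ = Γ.field o _ x t
    rw [Γ.field_apply o _ hx, happ t x hx, Γ.slotOf_pt o _ hx]
  · rw [hoff x hx]
    exact (Γ.field_of_not o _ hx).symm

theorem fibre_perm_apply {T : Type} [Finite T] {κ : Type*} [Fintype κ] (c : Chart Cell X m T)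
    (φ : LocallyConstant X κ) (s : κ → Perm T) (k : κ) (p : X × Fin m) :
    (fibre c φ k).perm (s k) p = L.toPerm (part L c φ s) p ∨ (fibre c φ k).perm (s k) p = p := by
  by_cases hp : ∃ a, ∃ x ∈ (fibre c φ k).base, (fibre c φ k).pt a x = p
  · obtain ⟨a, x, hx, rfl⟩ := hp
    left
    rw [(fibre c φ k).perm_pt _ a hx]
    show _ = L.toPerm (part L c φ s) (c.pt a x)
    rw [toPerm_part L c φ s a hx.1, show φ x = k from hx.2]
    rfl
  · push Not at hp
    exact Or.inr ((fibre c φ k).perm_of_not _ hp)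

theorem part_eq_lft {T : Type} [Finite T] {κ : Type*} [Fintype κ] (c : Chart Cell X m T)
    (φ : LocallyConstant X κ) (s : κ → Perm T) (hs : L.toPerm (part L c φ s) ∈ Γ.Blk o)
    (h : ∀ k, (fibre c φ k).perm (s k) ∈ Γ.Blk o →
      L.lift (fibre c φ k) (s k) = Γ.lft L o ((fibre c φ k).perm (s k))) :
    part L c φ s = Γ.lft L o (L.toPerm (part L c φ s)) := by
  classical
  let H : Submonoid (κ → Perm T) :=
    { carrier := {s | L.toPerm (part L c φ s) ∈ Γ.Blk o ∧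
        part L c φ s = Γ.lft L o (L.toPerm (part L c φ s))}
      one_mem' := by simp [Γ.lft_one L o, one_mem]
      mul_mem' := fun {s t} hs ht => by
        refine ⟨by rw [map_mul, map_mul]; exact mul_mem hs.1 ht.1, ?_⟩
        rw [map_mul, map_mul, Γ.lft_mul L o hs.1 ht.1, ← hs.2, ← ht.2] }
  suffices s ∈ H from this.2
  refine Submonoid.pi_mem_of_mulSingle_mem s fun k => ?_
  have hk : (fibre c φ k).perm (s k) ∈ Γ.Blk o := ⟨continuous_chartPerm _ _, fun p => by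
    rcases fibre_perm_apply L c φ s k p with e | e <;> rw [e]
    exact hs.2 p⟩
  show L.toPerm (part L c φ (Pi.mulSingle k (s k))) ∈ _ ∧ _
  rw [part_mulSingle, L.toPerm_lift]
  exact ⟨hk, h k hk⟩

end Grid

end Vale.Agent.P196.Flux
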