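import Vale.Agent.P196.Flux.Side

/-!
# P196, C7: the circulation number of a closed form

The four zones of a corner carry one integer, adjacent corners carry the same one, and by
minimality it is a constant.
-/

namespace Vale.Agent.P196.Flux.Grid

open Equiv Simple

set_option linter.unusedSectionVars false

variable {X : Type} [TopologicalSpace X] [AddAction Cell X] [ContinuousConstVAdd Cell X]
  [CompactSpace X] [T2Space X] {m : ℕ} {P : ℕ} {Γ : Grid X P} {w r R : ℤ}

/-- The upper zone of a corner. -/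
def VU (P : ℕ) (w r R : ℤ) (z : Cell) : Prop := (InV P w r z ∧ InBox P R z) ∧ Up P z

/-- The lower zone of a corner. -/
def VD (P : ℕ) (w r R : ℤ) (z : Cell) : Prop := (InV P w r z ∧ InBox P R z) ∧ ¬ Up P z

/-- The right zone of a corner. -/
def HR (P : ℕ) (w r R : ℤ) (z : Cell) : Prop := (InH P w r z ∧ InBox P R z) ∧ Rt P z

/-- The left zone of a corner. -/
def HL (P : ℕ) (w r R : ℤ) (z : Cell) : Prop := (InH P w r z ∧ InBox P R z) ∧ ¬ Rt P z

open Classical in
/-- The indicator as an integer. -/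
noncomputable def ind (p : Prop) : ℤ := if p then 1 else 0

theorem ind_congr {p q : Prop} (h : p ↔ q) : ind p = ind q := by rw [propext h]

theorem abs_ind_sub (p q : Prop) : |ind p - ind q| ≤ 1 := by
  unfold ind; split_ifs <;> simp

theorem pos_of_crd (Γ : Grid X P) (o : Cell) (x : X) :
    Γ.pos x = (((Γ.crd o x).1 + o.1) % (P : ℤ), ((Γ.crd o x).2 + o.2) % (P : ℤ)) := by
  have hm := Γ.mem x
  simp only [crd, Int.emod_add_emod, sub_add_cancel, Int.emod_eq_of_lt hm.1.1 hm.1.2,
    Int.emod_eq_of_lt hm.2.1 hm.2.2]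

/-- Signed crossing of a vertical line. -/
noncomputable def Form.dV (f : Γ.Form m w r R) (p : X × Fin m) : ℤ :=
  ind (Rt P (Γ.pos (f.c p).1)) - ind (Rt P (Γ.pos p.1))

/-- Signed crossing of a horizontal line. -/
noncomputable def Form.dH (f : Γ.Form m w r R) (p : X × Fin m) : ℤ :=
  ind (Up P (Γ.pos (f.c p).1)) - ind (Up P (Γ.pos p.1))

open Classical in
/-- Sum over the part `Z` of the square with corner `x`. -/
noncomputable def zsum (Γ : Grid X P) (o : Cell) (Z : Cell → Prop) (d : X × Fin m → ℤ) (x : X) :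
    ℤ :=
  ∑ t : (Fin P × Fin P) × Fin m,
    if Z (Γ.pos ((Γ.dom o).pt t x).1) then d ((Γ.dom o).pt t x) else 0

/-- The circulation at the corner with anchor `x`. -/
noncomputable def Form.count (f : Γ.Form m w r R) (x : X) : ℤ :=
  Γ.zsum (oC P) (VU P w r R) f.dV x

theorem sum_comp_mem {g : Perm (X × Fin m)} {o : Cell} (hg : g ∈ Γ.Blk o) {x : X}
    (hx : x ∈ (Γ.dom o (m := m)).base) (F : X × Fin m → ℤ) :
    ∑ t, (F (g ((Γ.dom o).pt t x)) - F ((Γ.dom o).pt t x)) = 0 := by
  rw [Finset.sum_sub_distrib, sub_eq_zero]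
  refine Eq.trans (Finset.sum_congr rfl fun t _ => ?_)
    (Equiv.sum_comp (Γ.fieldPerm o ⟨g, hg⟩ x hx) fun t => F ((Γ.dom o).pt t x))
  have e := pt_anc_of_mem hg ((Γ.dom o).pt t x)
  rw [Γ.anc_pt o t hx] at e
  exact (congrArg F e).symm

theorem not_V_and_H (hwr : w ≤ r) {z : Cell} (h : InV P w r z) : ¬ InH P w r z := by
  unfold InV InH Near at *; omega

theorem c_fix {f : Γ.Form m w r R} {p : X × Fin m} (h : ¬ InBox P R (Γ.pos p.1)) : f.c p = p := by
  by_contra hp
  exact h (f.c_supp p hp)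

theorem quadrant_sums (hf : Free X) (hwr : w ≤ r) {f : Γ.Form m w r R} (hc : f.Closed) {x : X}
    (hx : x ∈ (Γ.dom (oC P) (m := m)).base) :
    Γ.zsum (oC P) (HR P w r R) f.dH x = - f.count x ∧
      Γ.zsum (oC P) (HL P w r R) f.dH x = f.count x ∧
        Γ.zsum (oC P) (VD P w r R) f.dV x = - f.count x := by
  classical
  have e1 := sum_comp_mem f.c_mem hx fun p => ind (Rt P (Γ.pos p.1) ∧ Up P (Γ.pos p.1))
  have e2 := sum_comp_mem f.c_mem hx fun p => ind (¬ Rt P (Γ.pos p.1) ∧ Up P (Γ.pos p.1))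
  have e3 := sum_comp_mem f.c_mem hx fun p => ind (¬ Rt P (Γ.pos p.1) ∧ ¬ Up P (Γ.pos p.1))
  have key : ∀ p : X × Fin m,
      (ind (Rt P (Γ.pos (f.c p).1) ∧ Up P (Γ.pos (f.c p).1)) -
        ind (Rt P (Γ.pos p.1) ∧ Up P (Γ.pos p.1)) =
        (if VU P w r R (Γ.pos p.1) then f.dV p else 0) +
          if HR P w r R (Γ.pos p.1) then f.dH p else 0) ∧
      (ind (¬ Rt P (Γ.pos (f.c p).1) ∧ Up P (Γ.pos (f.c p).1)) -
        ind (¬ Rt P (Γ.pos p.1) ∧ Up P (Γ.pos p.1)) =
        -(if VU P w r R (Γ.pos p.1) then f.dV p else 0) +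
          if HL P w r R (Γ.pos p.1) then f.dH p else 0) ∧
      (ind (¬ Rt P (Γ.pos (f.c p).1) ∧ ¬ Up P (Γ.pos (f.c p).1)) -
        ind (¬ Rt P (Γ.pos p.1) ∧ ¬ Up P (Γ.pos p.1)) =
        -(if VD P w r R (Γ.pos p.1) then f.dV p else 0) +
          -(if HL P w r R (Γ.pos p.1) then f.dH p else 0)) := by
    intro p
    by_cases hb : InBox P R (Γ.pos p.1)
    · by_cases hV : InV P w r (Γ.pos p.1)
      · have h := (side_V hf hwr hc p hV).1
        have hH := not_V_and_H hwr hV
        simp only [VU, VD, HR, HL, hV, hb, hH, and_self, false_and, if_false, true_and,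
          Form.dV, ind, h]
        by_cases hu : Up P (Γ.pos p.1) <;> by_cases hr : Rt P (Γ.pos p.1) <;>
          by_cases hr' : Rt P (Γ.pos (f.c p).1) <;> simp [hu, hr, hr']
      · by_cases hH : InH P w r (Γ.pos p.1)
        · have h := (side_H hf hwr hc p hH).1
          simp only [VU, VD, HR, HL, hV, hb, hH, and_self, false_and, if_false, true_and,
            Form.dH, ind, h]
          by_cases hr : Rt P (Γ.pos p.1) <;> by_cases hu : Up P (Γ.pos p.1) <;>
            by_cases hu' : Up P (Γ.pos (f.c p).1) <;> simp [hu, hr, hu']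
        · obtain ⟨h1, h2⟩ := side_out hf hc p hV hH
          simp only [VU, VD, HR, HL, hV, hH, ind, h1, h2, false_and, if_false, add_zero, neg_zero]
          refine ⟨?_, ?_, ?_⟩ <;> split_ifs <;> rfl
    · simp [c_fix hb, VU, VD, HR, HL, hb]
  simp only [fun p => (key p).1, Finset.sum_add_distrib] at e1
  simp only [fun p => (key p).2.1, Finset.sum_add_distrib, Finset.sum_neg_distrib] at e2
  simp only [fun p => (key p).2.2, Finset.sum_add_distrib, Finset.sum_neg_distrib] at e3
  simp only [Form.count, zsum]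
  exact ⟨by linarith, by linarith, by linarith⟩

/-- Reindexing a zone sum between two kinds of squares. -/
theorem zsum_shift {o o' : Cell} {Z : Cell → Prop} (d : X × Fin m → ℤ) {y x : X}
    (hy : y ∈ (Γ.dom o (m := m)).base) (hx : x ∈ (Γ.dom o' (m := m)).base) (v : Cell)
    (hxy : x = v +ᵥ y) (hZ : ∀ z : Cell, (0 ≤ z.1 ∧ z.1 < (P : ℤ)) → (0 ≤ z.2 ∧ z.2 < (P : ℤ)) →
      Z z → (z.1 - o'.1) % (P : ℤ) = (z.1 - o.1) % (P : ℤ) - v.1 ∧
        (z.2 - o'.2) % (P : ℤ) = (z.2 - o.2) % (P : ℤ) - v.2) :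
    Γ.zsum o Z d y = Γ.zsum o' Z d x := by
  classical
  have hcr : ∀ p : X × Fin m, Z (Γ.pos p.1) → Γ.anc o' p.1 = v +ᵥ Γ.anc o p.1 := by
    intro p hp
    have e : Γ.crd o' p.1 = Γ.crd o p.1 - v :=
      Prod.ext (hZ _ (Γ.mem _).1 (Γ.mem _).2 hp).1 (hZ _ (Γ.mem _).1 (Γ.mem _).2 hp).2
    simp only [anc, e, ← add_vadd]
    congr 1
    abel
  simp only [zsum, ← Finset.sum_filter]
  refine Finset.sum_nbij' (fun t => Γ.slotOf o' ((Γ.dom o).pt t y))
    (fun t => Γ.slotOf o ((Γ.dom o').pt t x)) ?_ ?_ ?_ ?_ ?_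
  · intro t ht
    simp only [Finset.mem_coe, Finset.mem_filter, Finset.mem_univ, true_and] at ht ⊢
    have h := hcr _ ht
    rw [Γ.anc_pt o t hy, ← hxy] at h
    have h' := Γ.pt_slotOf o' ((Γ.dom o).pt t y)
    rw [h] at h'
    rwa [h']
  · intro t ht
    simp only [Finset.mem_coe, Finset.mem_filter, Finset.mem_univ, true_and] at ht ⊢
    have h := hcr _ ht
    rw [Γ.anc_pt o' t hx] at h
    have h' := Γ.pt_slotOf o ((Γ.dom o').pt t x)
    rw [(vadd_left_cancel_iff v).1 (h.symm.trans hxy)] at h'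
    rwa [h']
  · intro t ht
    simp only [Finset.mem_filter, Finset.mem_univ, true_and] at ht
    have h := hcr _ ht
    rw [Γ.anc_pt o t hy, ← hxy] at h
    have h' := Γ.pt_slotOf o' ((Γ.dom o).pt t y)
    rw [h] at h'
    rw [h', Γ.slotOf_pt o t hy]
  · intro t ht
    simp only [Finset.mem_filter, Finset.mem_univ, true_and] at ht
    have h := hcr _ ht
    rw [Γ.anc_pt o' t hx] at h
    have h' := Γ.pt_slotOf o ((Γ.dom o').pt t x)
    rw [(vadd_left_cancel_iff v).1 (h.symm.trans hxy)] at h'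
    rw [h', Γ.slotOf_pt o' t hx]
  · intro t ht
    simp only [Finset.mem_filter, Finset.mem_univ, true_and] at ht
    have h := hcr _ ht
    rw [Γ.anc_pt o t hy, ← hxy] at h
    have h' := Γ.pt_slotOf o' ((Γ.dom o).pt t y)
    rw [h] at h'
    rw [h']

theorem crd_of_pos (Γ : Grid X P) (o : Cell) (x : X) :
    Γ.crd o x = (((Γ.pos x).1 - o.1) % (P : ℤ), ((Γ.pos x).2 - o.2) % (P : ℤ)) := rfl

theorem pos_base_C {x : X} (hP : 2 ≤ P) (hx : x ∈ (Γ.dom (oC P) (m := m)).base) :
    Γ.pos x = (half P, half P) := by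
  rw [Γ.pos_of_crd (oC P), show Γ.crd (oC P) x = 0 from hx]
  simp only [oC, Prod.fst_zero, Prod.snd_zero, zero_add]
  rw [Int.emod_eq_of_lt (by unfold half; omega) (by unfold half; omega)]

theorem count_edge (hf : Free X) (hwr : w ≤ r) (hR : 2 * R + 2 ≤ (P : ℤ)) (hP : 2 ≤ P)
    {f : Γ.Form m w r R} (hc : f.Closed) {x : X} (hx : x ∈ (Γ.dom (oC P) (m := m)).base) :
    f.count ((((P : ℤ), 0) : Cell) +ᵥ x) = f.count x ∧
      f.count (((0, (P : ℤ)) : Cell) +ᵥ x) = f.count x := by
  classical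
  have hh : 0 ≤ half P ∧ 2 * half P ≤ (P : ℤ) ∧ (P : ℤ) ≤ 2 * half P + 1 := by
    unfold half; omega
  have px := pos_base_C hP hx
  have e0 : half P % (P : ℤ) = half P := Int.emod_eq_of_lt hh.1 (by omega)
  have mem : ∀ (o : Cell) (v : Cell), (half P + v.1) % (P : ℤ) = o.1 →
      (half P + v.2) % (P : ℤ) = o.2 → v +ᵥ x ∈ (Γ.dom o (m := m)).base := by
    intro o v h1 h2
    show Γ.crd o (v +ᵥ x) = 0
    rw [crd_of_pos, Γ.pos_vadd, px, h1, h2]
    simp
  constructor
  · let y : X := (((P : ℤ) - half P, 0) : Cell) +ᵥ x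
    have hy : y ∈ (Γ.dom (oH P) (m := m)).base :=
      mem _ _ (by simp [oH]) (by simp [oH, e0])
    have hx' : (((P : ℤ), 0) : Cell) +ᵥ x ∈ (Γ.dom (oC P) (m := m)).base :=
      mem _ _ (by simp [oC, e0])
        (by simp [oC, e0])
    have e := sum_comp_mem (inv_mem f.a'_mem) hy fun p => ind (Up P (Γ.pos p.1))
    have key : ∀ p : X × Fin m, ind (Up P (Γ.pos (f.a'⁻¹ p).1)) - ind (Up P (Γ.pos p.1)) =
        (if HR P w r R (Γ.pos p.1) then f.dH p else 0) +
          if HL P w r R (Γ.pos p.1) then f.dH p else 0 := by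
      intro p
      by_cases hH : InH P w r (Γ.pos p.1)
      · rw [ind_congr (side_H hf hwr hc p hH).2.symm]
        by_cases hb : InBox P R (Γ.pos p.1)
        · by_cases hu : Rt P (Γ.pos p.1) <;> simp [HR, HL, hH, hb, hu, Form.dH]
        · simp [HR, HL, hb, c_fix hb]
      · have e : f.a'⁻¹ p = p := by
          by_contra h; exact hH (f.a'_supp.inv p h)
        simp [HR, HL, hH, e]
    simp only [key, Finset.sum_add_distrib] at e
    change Γ.zsum (oH P) (HR P w r R) f.dH y + Γ.zsum (oH P) (HL P w r R) f.dH y = 0 at e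
    rw [zsum_shift f.dH hy hx ((half P - (P : ℤ), 0) : Cell)
        (by simp only [y, ← add_vadd, Prod.mk_add_mk]; simp [Prod.mk_zero_zero]),
      zsum_shift f.dH hy hx' ((half P, 0) : Cell)
        (by simp only [y, ← add_vadd, Prod.mk_add_mk]; simp [Prod.mk_zero_zero])] at e
    · rw [(quadrant_sums hf hwr hc hx).1, (quadrant_sums hf hwr hc hx').2.1] at e
      linarith
    · intro z hz1 hz2 hz
      obtain ⟨⟨hH, hb⟩, hs⟩ := hz
      simp only [InH, InBox, Near, Rt] at hH hb hs
      simp only [oH, oC, sub_zero, and_true]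
      rw [Int.emod_eq_of_lt hz1.1 hz1.2, Int.emod_eq_of_lt (by omega) (by omega)]
    · intro z hz1 hz2 hz
      obtain ⟨⟨hH, hb⟩, hs⟩ := hz
      simp only [InH, InBox, Near, Rt] at hH hb hs
      simp only [oH, oC, sub_zero, and_true]
      rw [Int.emod_eq_of_lt hz1.1 hz1.2, ← Int.add_emod_right,
        Int.emod_eq_of_lt (by omega) (by omega)]
      ring
  · let y : X := ((0, (P : ℤ) - half P) : Cell) +ᵥ x
    have hy : y ∈ (Γ.dom (oV P) (m := m)).base :=
      mem _ _ (by simp [oV, e0]) (by simp [oV])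
    have hx' : ((0, (P : ℤ)) : Cell) +ᵥ x ∈ (Γ.dom (oC P) (m := m)).base :=
      mem _ _ (by simp [oC, e0])
        (by simp [oC, e0])
    have e := sum_comp_mem (inv_mem f.a_mem) hy fun p => ind (Rt P (Γ.pos p.1))
    have key : ∀ p : X × Fin m, ind (Rt P (Γ.pos (f.a⁻¹ p).1)) - ind (Rt P (Γ.pos p.1)) =
        (if VU P w r R (Γ.pos p.1) then f.dV p else 0) +
          if VD P w r R (Γ.pos p.1) then f.dV p else 0 := by
      intro p
      by_cases hV : InV P w r (Γ.pos p.1)
      · rw [ind_congr (side_V hf hwr hc p hV).2.symm]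
        by_cases hb : InBox P R (Γ.pos p.1)
        · by_cases hu : Up P (Γ.pos p.1) <;> simp [VU, VD, hV, hb, hu, Form.dV]
        · simp [VU, VD, hb, c_fix hb]
      · have e : f.a⁻¹ p = p := by
          by_contra h; exact hV (f.a_supp.inv p h)
        simp [VU, VD, hV, e]
    simp only [key, Finset.sum_add_distrib] at e
    change Γ.zsum (oV P) (VU P w r R) f.dV y + Γ.zsum (oV P) (VD P w r R) f.dV y = 0 at e
    rw [zsum_shift f.dV hy hx ((0, half P - (P : ℤ)) : Cell)
        (by simp only [y, ← add_vadd, Prod.mk_add_mk]; simp [Prod.mk_zero_zero]),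
      zsum_shift f.dV hy hx' ((0, half P) : Cell)
        (by simp only [y, ← add_vadd, Prod.mk_add_mk]; simp [Prod.mk_zero_zero])] at e
    · rw [(quadrant_sums hf hwr hc hx').2.2] at e
      change f.count x + -f.count _ = 0 at e
      linarith
    · intro z hz1 hz2 hz
      obtain ⟨⟨hV, hb⟩, hs⟩ := hz
      simp only [InV, InBox, Near, Up] at hV hb hs
      simp only [oV, oC, sub_zero, true_and]
      rw [Int.emod_eq_of_lt hz2.1 hz2.2, Int.emod_eq_of_lt (by omega) (by omega)]
    · intro z hz1 hz2 hz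
      obtain ⟨⟨hV, hb⟩, hs⟩ := hz
      simp only [InV, InBox, Near, Up] at hV hb hs
      simp only [oV, oC, sub_zero, true_and]
      rw [Int.emod_eq_of_lt hz2.1 hz2.2, ← Int.add_emod_right,
        Int.emod_eq_of_lt (by omega) (by omega)]
      ring

theorem isLocallyConstant_count (f : Γ.Form m w r R) : IsLocallyConstant f.count := by
  classical
  have h : IsLocallyConstant fun p : X × Fin m =>
      if VU P w r R (Γ.pos p.1) then f.dV p else 0 := by
    have h2 : IsLocallyConstant fun p : X × Fin m => (Γ.pos p.1, Γ.pos (f.c p).1) :=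
      (Γ.loc.comp_continuous continuous_fst).prodMk
        (Γ.loc.comp_continuous (continuous_fst.comp f.c_mem.1))
    exact h2.comp fun q : Cell × Cell =>
      if VU P w r R q.1 then ind (Rt P q.2) - ind (Rt P q.1) else 0
  refine (IsLocallyConstant.iff_eventually_eq _).2 fun x => ?_
  filter_upwards [Filter.eventually_all.2 fun t => (IsLocallyConstant.iff_eventually_eq _).1
    (h.comp_continuous ((continuous_const_vadd ((Γ.dom (oC P) (m := m)).slot t).1).prodMk
      (continuous_const (y := ((Γ.dom (oC P) (m := m)).slot t).2)))) x] with y hy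
  exact Finset.sum_congr rfl fun t _ => hy t

/-- By minimality the circulation is a constant. -/
theorem exists_count (hf : Free X) (hmin : Minimal X) (hwr : w ≤ r) (hR : 2 * R + 2 ≤ (P : ℤ))
    (hP : 2 ≤ P) {f : Γ.Form m w r R} (hc : f.Closed) :
    ∃ n : ℤ, ∀ x ∈ (Γ.dom (oC P) (m := m)).base, f.count x = n := by
  rcases isEmpty_or_nonempty X with hX | ⟨⟨x0⟩⟩
  · exact ⟨0, fun x => (hX.false x).elim⟩
  let F : X → ℤ := fun y => f.count (Γ.anc (oC P) y)
  have hP0 : (0 : ℤ) < P := by omega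
  have step1 : ∀ y, F (((1, 0) : Cell) +ᵥ y) = F y := by
    intro y
    have hm := Γ.crd_mem (oC P) y
    by_cases h : (Γ.crd (oC P) y).1 + 1 < P
    · simp only [F]
      rw [Γ.anc_vadd (oC P) _ y (by simp; omega) (by simp; omega)]
    · have e : Γ.anc (oC P) (((1, 0) : Cell) +ᵥ y) =
          (((P : ℤ), 0) : Cell) +ᵥ Γ.anc (oC P) y := by
        simp only [anc, Γ.crd_vadd, ← add_vadd]
        congr 1
        refine Prod.ext ?_ ?_
        · simp only [Prod.fst_add, Prod.fst_neg]
          rw [show (Γ.crd (oC P) y).1 + 1 = (P : ℤ) by omega, Int.emod_self]; omega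
        · simp [Int.emod_eq_of_lt hm.2.1 hm.2.2]
      simp only [F, e]
      exact (count_edge hf hwr hR hP hc (Γ.anc_mem (oC P) y)).1
  have step2 : ∀ y, F (((0, 1) : Cell) +ᵥ y) = F y := by
    intro y
    have hm := Γ.crd_mem (oC P) y
    by_cases h : (Γ.crd (oC P) y).2 + 1 < P
    · simp only [F]
      rw [Γ.anc_vadd (oC P) _ y (by simp; omega) (by simp; omega)]
    · have e : Γ.anc (oC P) (((0, 1) : Cell) +ᵥ y) =
          ((0, (P : ℤ)) : Cell) +ᵥ Γ.anc (oC P) y := by
        simp only [anc, Γ.crd_vadd, ← add_vadd]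
        congr 1
        refine Prod.ext ?_ ?_
        · simp [Int.emod_eq_of_lt hm.1.1 hm.1.2]
        · simp only [Prod.snd_add, Prod.snd_neg]
          rw [show (Γ.crd (oC P) y).2 + 1 = (P : ℤ) by omega, Int.emod_self]; omega
      simp only [F, e]
      exact (count_edge hf hwr hR hP hc (Γ.anc_mem (oC P) y)).2
  let H : AddSubgroup Cell :=
    { carrier := {v | ∀ y, F (v +ᵥ y) = F y}
      zero_mem' := fun y => by rw [zero_vadd]
      add_mem' := fun {a b} ha hb y => by rw [add_vadd, ha, hb]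
      neg_mem' := fun {a} ha y => by
        have := ha ((-a) +ᵥ y); rw [vadd_neg_vadd] at this; exact this.symm }
  have hall : ∀ v : Cell, v ∈ H := fun v => by
    have e : v = v.1 • ((1, 0) : Cell) + v.2 • ((0, 1) : Cell) := by
      ext <;> simp
    rw [e]
    exact add_mem (zsmul_mem (show ((1, 0) : Cell) ∈ H from step1) _)
      (zsmul_mem (show ((0, 1) : Cell) ∈ H from step2) _)
  have hF : IsLocallyConstant F := (isLocallyConstant_count f).comp_continuous <| by
    refine continuous_iff_continuousAt.2 fun y => ?_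
    have hev : Γ.anc (oC P) =ᶠ[nhds y] fun z => (-Γ.crd (oC P) y) +ᵥ z := by
      filter_upwards [(IsLocallyConstant.iff_eventually_eq _).1
        (Γ.isLocallyConstant_crd (oC P)) y] with z hz
      rw [anc, hz]
    exact (continuous_const_vadd _).continuousAt.congr hev.symm
  refine ⟨F x0, fun x hx => ?_⟩
  obtain ⟨v, hv⟩ := hmin x (F ⁻¹' {F x0}) (hF _) ⟨x0, rfl⟩
  have h1 : F (v +ᵥ x) = F x0 := hv
  rw [hall v x] at h1
  have h2 : Γ.anc (oC P) x = x := by
    rw [anc, show Γ.crd (oC P) x = 0 from hx, neg_zero, zero_vadd]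
  simpa [F, h2] using h1

/-- The circulation is bounded by the size of a zone. -/
theorem count_le (hR : 2 * R + 2 ≤ (P : ℤ)) (f : Γ.Form m w r R) {x : X}
    (hx : x ∈ (Γ.dom (oC P) (m := m)).base) :
    |f.count x| ≤ ((2 * w).toNat * R.toNat * m : ℕ) := by
  classical
  rw [Form.count, zsum, ← Finset.sum_filter]
  refine (Finset.abs_sum_le_sum_abs _ _).trans ?_
  refine (Finset.sum_le_card_nsmul _ _ 1 fun t _ => abs_ind_sub _ _).trans ?_
  rw [nsmul_eq_mul, mul_one, Nat.cast_le]
  let h' : ℤ := (P : ℤ) - half P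
  refine (Finset.card_le_card_of_injOn
    (t := (Finset.Ico (h' - w) (h' + w) ×ˢ Finset.Ico h' (h' + R)) ×ˢ (Finset.univ : Finset (Fin m)))
    (fun t => (((t.1.1.val : ℤ), (t.1.2.val : ℤ)), t.2)) ?_ ?_).trans ?_
  · intro t ht
    simp only [Finset.mem_coe, Finset.mem_filter, Finset.mem_univ, true_and] at ht
    rw [Γ.pos_of_crd (oC P), Γ.crd_pt _ t hx] at ht
    obtain ⟨⟨hV, hb⟩, hu⟩ := ht
    simp only [InV, InBox, Near, Up, oC] at hV hb hu
    have := t.1.1.isLt
    have := t.1.2.isLt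
    simp only [Finset.mem_coe, Finset.mem_product, Finset.mem_Ico, Finset.mem_univ, and_true, h']
    have hh : 0 ≤ half P ∧ 2 * half P ≤ (P : ℤ) ∧ (P : ℤ) ≤ 2 * half P + 1 := by
      unfold half; omega
    rcases lt_or_ge ((t.1.1.val : ℤ) + half P) P with e | e <;>
    rcases lt_or_ge ((t.1.2.val : ℤ) + half P) P with e' | e'
    all_goals
      first
        | rw [Int.emod_eq_of_lt (a := (t.1.1.val : ℤ) + half P) (by omega) e] at hV hb
        | rw [← Int.sub_emod_right ((t.1.1.val : ℤ) + half P),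
            Int.emod_eq_of_lt (by omega) (by omega)] at hV hb
      first
        | rw [Int.emod_eq_of_lt (a := (t.1.2.val : ℤ) + half P) (by omega) e'] at hV hb hu
        | rw [← Int.sub_emod_right ((t.1.2.val : ℤ) + half P),
            Int.emod_eq_of_lt (by omega) (by omega)] at hV hb hu
      omega
  · rintro ⟨⟨a1, a2⟩, i⟩ - ⟨⟨b1, b2⟩, j⟩ - e
    simp only [Prod.mk.injEq, Nat.cast_inj] at e
    exact Prod.ext (Prod.ext (Fin.ext e.1.1) (Fin.ext e.1.2)) e.2
  · simp only [Finset.card_product, Int.card_Ico, Finset.card_univ, Fintype.card_fin]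
    rw [show h' + w - (h' - w) = 2 * w by ring, show h' + R - h' = R by ring]

end Vale.Agent.P196.Flux.Grid
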