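import Vale.Agent.P196.Simple.Defs

/-!
# P196, C7: lifts of clopen chart permutations

A lift is a group over the permutations of the points with compatible homomorphisms from the slot
permutations of every chart, satisfying splitting, forgetting, shifting and disjoint commutation.
The flux theorem: over a minimal action of the plane with grids of every size the kernel of a lift
is central and finitely generated.
-/

namespace Vale.Agent.P196.Flux

open Equiv Simple

/-- A position in the plane. -/
abbrev Cell : Type := ℤ × ℤ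

/-- An equivariant locally constant position modulo `P`. -/
structure Grid (X : Type) [TopologicalSpace X] [AddAction Cell X] (P : ℕ) where
  pos : X → Cell
  loc : IsLocallyConstant pos
  mem : ∀ x, (0 ≤ (pos x).1 ∧ (pos x).1 < P) ∧ (0 ≤ (pos x).2 ∧ (pos x).2 < P)
  pos_vadd : ∀ (v : Cell) (x : X),
    pos (v +ᵥ x) = (((pos x).1 + v.1) % (P : ℤ), ((pos x).2 + v.2) % (P : ℤ))

/-- Grids of arbitrarily large side. -/
def HasGrids (X : Type) [TopologicalSpace X] [AddAction Cell X] : Prop :=
  ∀ N : ℕ, ∃ P, N ≤ P ∧ Nonempty (Grid X P)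

/-- Every orbit meets every nonempty open set. -/
def Minimal (X : Type) [TopologicalSpace X] [AddAction Cell X] : Prop :=
  ∀ (x : X) (O : Set X), IsOpen O → O.Nonempty → ∃ v : Cell, v +ᵥ x ∈ O

/-- Compatible lifts of the slot permutations of all charts, generating the group. -/
structure Lift (X : Type) [TopologicalSpace X] [AddAction Cell X] (m : ℕ) (G : Type*)
    [Group G] where
  toPerm : G →* Perm (X × Fin m)
  lift : ∀ {T : Type} [Finite T], Chart Cell X m T → Perm T →* G
  toPerm_lift : ∀ {T : Type} [Finite T] (c : Chart Cell X m T) (σ : Perm T),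
    toPerm (lift c σ) = c.perm σ
  lift_comap : ∀ {S T : Type} [Finite S] [Finite T] (c : Chart Cell X m T) (f : S ↪ T)
    (σ : Perm S), lift (c.comap f) σ = lift c (Perm.viaEmbedding σ f)
  lift_split : ∀ {T : Type} [Finite T] (c : Chart Cell X m T) (U : Set X) (hU : IsClopen U)
    (σ : Perm T),
    lift c σ = lift (c.restrict (c.base ∩ U) (c.clopen.inter hU) Set.inter_subset_left) σ *
      lift (c.restrict (c.base ∩ Uᶜ) (c.clopen.inter hU.compl) Set.inter_subset_left) σ
  lift_shift : ∀ {T : Type} [Finite T] (c d : Chart Cell X m T) (v : Cell),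
    d.base = (fun x => v +ᵥ x) '' c.base →
    (∀ a, d.slot a = ((c.slot a).1 - v, (c.slot a).2)) → lift d = lift c
  lift_commute : ∀ {S T : Type} [Finite S] [Finite T] (c : Chart Cell X m S)
    (d : Chart Cell X m T) (σ : Perm S) (τ : Perm T),
    (∀ a b, σ a ≠ a → τ b ≠ b → ∀ x ∈ c.base, ∀ y ∈ d.base, c.pt a x ≠ d.pt b y) →
    Commute (lift c σ) (lift d τ)
  generated : Subgroup.closure
    {g | ∃ c : Chart Cell X m (Fin 2), g = lift c (swap 0 1)} = ⊤

end Vale.Agent.P196.Flux
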