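import Vale.Agent.P196.Flux.Count

/-!
# P196, C7: closed forms with the same circulation give the same element
-/

namespace Vale.Agent.P196.Flux.Grid

open Equiv Simple

set_option linter.unusedSectionVars false

variable {X : Type} [TopologicalSpace X] [AddAction Cell X] [ContinuousConstVAdd Cell X]
  [CompactSpace X] [T2Space X] {m : ℕ} {G : Type*} [Group G] (L : Lift X m G) {P : ℕ}
  {Γ : Grid X P} {w r R : ℤ}

theorem exists_match {T : Type} [Fintype T] [DecidableEq T] (Z : T → Bool) (s k1 k2 : T → Bool)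
    (h : ∀ b, (Finset.univ.filter fun t => Z t = true ∧ s t = b ∧ k1 t = true).card =
      (Finset.univ.filter fun t => Z t = true ∧ s t = b ∧ k2 t = true).card) :
    ∃ v : Perm T, ∀ t, (Z t = false → v t = t) ∧
      (Z t = true → Z (v t) = true ∧ s (v t) = s t ∧ k2 (v t) = k1 t) := by
  classical
  let key : (T → Bool) → T → T ⊕ (Bool × Bool) := fun k t =>
    if Z t = true then Sum.inr (s t, k t) else Sum.inl t
  have hc : ∀ c, Fintype.card {t // key k1 t = c} = Fintype.card {t // key k2 t = c} := by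
    intro c
    rw [Fintype.card_subtype, Fintype.card_subtype]
    rcases c with t0 | ⟨b, b'⟩
    · congr 1
      ext t
      by_cases ht : Z t = true <;> simp [key, ht]
    · have e : ∀ k : T → Bool, (Finset.univ.filter fun t => key k t = Sum.inr (b, b')) =
          Finset.univ.filter fun t => Z t = true ∧ s t = b ∧ k t = b' := fun k => by
        ext t
        by_cases ht : Z t = true <;> simp [key, ht]
      rw [e, e]
      cases b'
      · have split : ∀ k : T → Bool,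
            (Finset.univ.filter fun t => Z t = true ∧ s t = b ∧ k t = true).card +
              (Finset.univ.filter fun t => Z t = true ∧ s t = b ∧ k t = false).card =
            (Finset.univ.filter fun t => Z t = true ∧ s t = b).card := fun k => by
          rw [← Finset.card_union_of_disjoint (Finset.disjoint_filter.2 fun t _ h1 h2 => by
            simp [h1.2.2] at h2)]
          congr 1
          ext t
          simp only [Finset.mem_union, Finset.mem_filter, Finset.mem_univ, true_and]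
          cases k t <;> simp
        have := split k1
        have := split k2
        have := h b
        omega
      · exact h b
  let e : T ≃ T := Equiv.ofFiberEquiv fun c => Fintype.equivOfCardEq (hc c)
  refine ⟨e, fun t => ?_⟩
  have hk : key k2 (e t) = key k1 t := Equiv.ofFiberEquiv_map _ t
  constructor
  · intro ht
    by_cases he : Z (e t) = true
    · simp [key, ht, he] at hk
    · simp [key, ht, he] at hk
      exact hk
  · intro ht
    by_cases he : Z (e t) = true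
    · simp [key, ht, he] at hk
      exact ⟨he, hk.1, hk.2⟩
    · simp [key, ht, he] at hk

open Classical in
/-- A chosen matching, the identity when nothing is to be matched. -/
noncomputable def gaugeSlot {T : Type} (Z s : T → Bool) (k1 k2 : T → Bool) : Perm T :=
  if h : ∃ v : Perm T, ∀ t, (Z t = false → v t = t) ∧
      (Z t = true → Z (v t) = true ∧ s (v t) = s t ∧ k2 (v t) = k1 t) then h.choose else 1

/-- Position of a slot of the corner squares. -/
def slotPos (P : ℕ) (t : (Fin P × Fin P) × Fin m) : Cell :=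
  (((t.1.1.val : ℤ) + half P) % (P : ℤ), ((t.1.2.val : ℤ) + half P) % (P : ℤ))

theorem pos_pt (t : (Fin P × Fin P) × Fin m) {x : X} (hx : x ∈ (Γ.dom (oC P) (m := m)).base) :
    Γ.pos ((Γ.dom (oC P)).pt t x).1 = slotPos P t := by
  rw [Γ.pos_of_crd (oC P), Γ.crd_pt _ t hx]
  rfl

include L in
open Classical in
theorem exists_gauge (Z S Q : Cell → Prop) (c1 c2 : Perm (X × Fin m))
    (h1 : Continuous (c1 : X × Fin m → X × Fin m)) (h2 : Continuous (c2 : X × Fin m → X × Fin m))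
    (hsum : ∀ x ∈ (Γ.dom (oC P) (m := m)).base, ∀ b : Bool,
      Γ.zsum (oC P) (fun z => Z z ∧ decide (S z) = b) (fun p => ind (Q (Γ.pos (c1 p).1))) x =
        Γ.zsum (oC P) (fun z => Z z ∧ decide (S z) = b) (fun p => ind (Q (Γ.pos (c2 p).1))) x) :
    ∃ v : Perm (X × Fin m), v ∈ Γ.Blk (oC P) ∧ Γ.Supp v Z ∧ ∀ p, Z (Γ.pos p.1) →
      Z (Γ.pos (v p).1) ∧ (S (Γ.pos (v p).1) ↔ S (Γ.pos p.1)) ∧
        (Q (Γ.pos (c2 (v p)).1) ↔ Q (Γ.pos (c1 p).1)) := by
  let T := (Fin P × Fin P) × Fin m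
  let zb : T → Bool := fun t => decide (Z (slotPos P t))
  let sb : T → Bool := fun t => decide (S (slotPos P t))
  let k : Perm (X × Fin m) → X → T → Bool := fun c x t =>
    decide (Q (Γ.pos (c ((Γ.dom (oC P)).pt t x)).1))
  have hloc : ∀ c : Perm (X × Fin m), Continuous (c : X × Fin m → X × Fin m) → ∀ x,
      ∀ᶠ y in nhds x, k c y = k c x := fun c hc x => by
    have h : ∀ t : T, IsLocallyConstant fun y => Γ.pos (c ((Γ.dom (oC P)).pt t y)).1 := fun t =>
      Γ.loc.comp_continuous (continuous_fst.comp (hc.comp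
        ((continuous_const_vadd _).prodMk continuous_const)))
    filter_upwards [Filter.eventually_all.2 fun t =>
      (IsLocallyConstant.iff_eventually_eq _).1 (h t) x] with y hy
    funext t
    simp only [k, hy t]
  let F : LocallyConstant X (Perm T) :=
    ⟨fun x => if Γ.crd (oC P) x = 0 then gaugeSlot zb sb (k c1 x) (k c2 x) else 1, by
      refine (IsLocallyConstant.iff_eventually_eq _).2 fun x => ?_
      filter_upwards [hloc c1 h1 x, hloc c2 h2 x,
        (IsLocallyConstant.iff_eventually_eq _).1 (Γ.isLocallyConstant_crd (oC P)) x]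
        with y e1 e2 e3
      simp only [e1, e2, e3]⟩
  obtain ⟨hmem, -⟩ := Γ.fieldHom_eq_lft L (oC P) F fun x hx => if_neg hx
  refine ⟨L.toPerm (fieldHom L (Γ.dom (oC P)) F), hmem, ?_⟩
  have spec : ∀ x, x ∈ (Γ.dom (oC P) (m := m)).base → ∀ t : T,
      (¬ Z (slotPos P t) → F x t = t) ∧ (Z (slotPos P t) → Z (slotPos P (F x t)) ∧
        (S (slotPos P (F x t)) ↔ S (slotPos P t)) ∧
        (Q (Γ.pos (c2 ((Γ.dom (oC P)).pt (F x t) x)).1) ↔
          Q (Γ.pos (c1 ((Γ.dom (oC P)).pt t x)).1))) := by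
    intro x hx t
    have hex := exists_match zb sb (k c1 x) (k c2 x) fun b => by
      have h := hsum x hx b
      simp only [zsum, pos_pt _ hx] at h
      have cnt : ∀ c : Perm (X × Fin m),
          ((Finset.univ.filter fun t => zb t = true ∧ sb t = b ∧ k c x t = true).card : ℤ) =
          ∑ t : T, if Z (slotPos P t) ∧ decide (S (slotPos P t)) = b then
            ind (Q (Γ.pos (c ((Γ.dom (oC P)).pt t x)).1)) else 0 := fun c => by
        rw [Finset.card_filter]
        push_cast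
        refine Finset.sum_congr rfl fun t _ => ?_
        simp only [zb, sb, k, ind, decide_eq_true_eq]
        by_cases hz : Z (slotPos P t) <;> by_cases hs : decide (S (slotPos P t)) = b <;>
          simp [hz, hs]
      exact_mod_cast ((cnt c1).trans h).trans (cnt c2).symm
    have hF : F x = hex.choose := by
      show (if _ then _ else _) = _
      rw [if_pos (show Γ.crd (oC P) x = 0 from hx), gaugeSlot, dif_pos hex]
    obtain ⟨a1, a2⟩ := hex.choose_spec t
    rw [← hF] at a1 a2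
    refine ⟨fun h => a1 (by simp [zb, h]), fun h => ?_⟩
    obtain ⟨b1, b2, b3⟩ := a2 (by simp [zb, h])
    simp only [zb, sb, k, decide_eq_true_eq, decide_eq_decide] at b1 b2 b3
    exact ⟨b1, b2, b3⟩
  have happ : ∀ p, L.toPerm (fieldHom L (Γ.dom (oC P)) F) p =
      (Γ.dom (oC P)).pt (F (Γ.anc (oC P) p.1) (Γ.slotOf (oC P) p)) (Γ.anc (oC P) p.1) := by
    intro p
    conv_lhs => rw [← Γ.pt_slotOf (oC P) p]
    exact toPerm_fieldHom L _ F _ (Γ.anc_mem (oC P) p.1)
  have hsp : ∀ p : X × Fin m, slotPos P (Γ.slotOf (oC P) p) = Γ.pos p.1 := fun p => by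
    rw [← pos_pt _ (Γ.anc_mem (oC P) p.1), Γ.pt_slotOf]
  constructor
  · intro p hp
    by_contra hz
    apply hp
    rw [happ p, (spec _ (Γ.anc_mem (oC P) p.1) _).1 (by rw [hsp]; exact hz), Γ.pt_slotOf]
  · intro p hz
    obtain ⟨b1, b2, b3⟩ := (spec _ (Γ.anc_mem (oC P) p.1) _).2 (by rw [hsp]; exact hz)
    rw [Γ.pt_slotOf] at b3
    rw [happ p, pos_pt _ (Γ.anc_mem (oC P) p.1)]
    rw [hsp] at b2
    exact ⟨b1, b2, b3⟩

theorem Form.val_mem_center (hf : Free X) (hgrid : HasGrids X) {f : Γ.Form m w r R}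
    (hc : f.Closed) : f.val L ∈ Subgroup.center G :=
  ker_le_center L hf hgrid (by rw [MonoidHom.mem_ker, Form.toPerm_val]; exact hc)

theorem val_eq_of_c_eq (hf : Free X) (hwr : w ≤ r) {f g : Γ.Form m w r R} (h1 : f.Closed)
    (h2 : g.Closed) (hcc : f.c = g.c) : f.val L = g.val L := by
  have dV : f.a⁻¹ * g.a ∈ Γ.Blk 0 := by
    refine ⟨f.a_mem.1.continuous_symm_of_equiv_compact_to_t2 (f := f.a) |>.comp g.a_mem.1,
      fun p => ?_⟩
    have hp : g.a⁻¹ (g.a p) = p := by simp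
    show Γ.anc 0 (f.a⁻¹ (g.a p)).1 = _
    by_cases hq : InV P w r (Γ.pos (g.a p).1)
    · rw [← anc_V hwr h1 _ hq, hcc, anc_V hwr h2 _ hq, hp]
    · have e1 : f.a⁻¹ (g.a p) = g.a p := by
        by_contra h; exact hq (f.a_supp.inv _ h)
      have e2 : g.a⁻¹ (g.a p) = g.a p := by
        by_contra h; exact hq (g.a_supp.inv _ h)
      rw [hp] at e2
      rw [e1, ← e2]
  have dH : f.a'⁻¹ * g.a' ∈ Γ.Blk 0 := by
    refine ⟨f.a'_mem.1.continuous_symm_of_equiv_compact_to_t2 (f := f.a') |>.comp g.a'_mem.1,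
      fun p => ?_⟩
    have hp : g.a'⁻¹ (g.a' p) = p := by simp
    show Γ.anc 0 (f.a'⁻¹ (g.a' p)).1 = _
    by_cases hq : InH P w r (Γ.pos (g.a' p).1)
    · rw [← anc_H hwr h1 _ hq, hcc, anc_H hwr h2 _ hq, hp]
    · have e1 : f.a'⁻¹ (g.a' p) = g.a' p := by
        by_contra h; exact hq (f.a'_supp.inv _ h)
      have e2 : g.a'⁻¹ (g.a' p) = g.a' p := by
        by_contra h; exact hq (g.a'_supp.inv _ h)
      rw [hp] at e2
      rw [e1, ← e2]
  have sV : Γ.Supp (f.a⁻¹ * g.a) (InV P w r) := f.a_supp.inv.mul g.a_supp fun z hz => hz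
  have mV : f.a⁻¹ * g.a ∈ Γ.Blk (oV P) := mul_mem (inv_mem f.a_mem) g.a_mem
  have mH : f.a'⁻¹ * g.a' ∈ Γ.Blk (oH P) := mul_mem (inv_mem f.a'_mem) g.a'_mem
  have comm : Commute f.a' (f.a⁻¹ * g.a) := Perm.Disjoint.commute fun p =>
    f.a'_supp.disj sV (fun z h h' => not_V_and_H hwr h' h) p
  have hb : f.b = (f.a⁻¹ * g.a) * (f.a'⁻¹ * g.a') * g.b := by
    have q1 : f.c * f.a * f.a' * f.b = f.c * g.a * g.a' * g.b := by
      conv_rhs => rw [hcc]
      exact (show _ = (1 : Perm (X × Fin m)) from h1).trans h2.symm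
    have q2 : f.b = f.a'⁻¹ * (f.a⁻¹ * g.a) * g.a' * g.b := by
      calc f.b = f.a'⁻¹ * f.a⁻¹ * f.c⁻¹ * (f.c * f.a * f.a' * f.b) := by group
        _ = f.a'⁻¹ * f.a⁻¹ * f.c⁻¹ * (f.c * g.a * g.a' * g.b) := by rw [q1]
        _ = _ := by group
    rw [q2, comm.inv_left.eq]
    group
  have lcomm : Commute (Γ.lft L (oV P) (f.a⁻¹ * g.a)) (Γ.lft L (oH P) f.a') :=
    Γ.lft_commute L (oV P) mV f.a'_mem (sV.disj f.a'_supp fun z h h' => not_V_and_H hwr h h')
  simp only [Form.val]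
  rw [hb, Γ.lft_mul L 0 (mul_mem dV dH) g.b_mem, Γ.lft_mul L 0 dV dH,
    Γ.lft_agree L 0 hf dV mV, Γ.lft_agree L 0 hf dH mH, hcc]
  conv_rhs => rw [show g.a = f.a * (f.a⁻¹ * g.a) by group,
    show g.a' = f.a' * (f.a'⁻¹ * g.a') by group]
  rw [Γ.lft_mul L _ f.a_mem mV, Γ.lft_mul L _ f.a'_mem mH]
  simp only [mul_assoc]
  rw [← mul_assoc (Γ.lft L (oV P) (f.a⁻¹ * g.a)) (Γ.lft L (oH P) f.a'), lcomm.eq, mul_assoc]

theorem mem_V_of_gauge (hf : Free X) (hR : 2 * R + 2 ≤ (P : ℤ)) {v : Perm (X × Fin m)}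
    (hv : v ∈ Γ.Blk (oC P)) (hs : Γ.Supp v fun z => InV P w r z ∧ InBox P R z)
    (h : ∀ p, InV P w r (Γ.pos p.1) ∧ InBox P R (Γ.pos p.1) →
      (Up P (Γ.pos (v p).1) ↔ Up P (Γ.pos p.1))) :
    v ∈ Γ.Blk (oV P) := by
  refine mem_blk hv.1 fun p hp => ?_
  have hu := disp_of_mem Γ hv p
  obtain ⟨ru1, ru2⟩ := range_of_mem hf hv hu
  have h2 := h p (hs p hp)
  generalize Γ.crd (oC P) (v p).1 - Γ.crd (oC P) p.1 = u at hu ru1 ru2
  refine ⟨u, hu, ?_⟩
  have hm := Γ.mem p.1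
  have hh : 0 ≤ half P ∧ 2 * half P ≤ (P : ℤ) := by unfold half; omega
  simp only [crd, oC] at ru1 ru2
  simp only [Up, hu, Γ.pos_vadd] at h2
  simp only [crd, oV, sub_zero, Int.emod_eq_of_lt hm.2.1 hm.2.2]
  rcases sub_half_emod (P := P) hm.2.1 hm.2.2 with hE | hE <;>
  rcases emod_cases (d := u.2) hm.2.1 hm.2.2 (by omega) (by omega) with hD | hD | hD <;>
  omega

theorem mem_H_of_gauge (hf : Free X) (hR : 2 * R + 2 ≤ (P : ℤ)) {v : Perm (X × Fin m)}
    (hv : v ∈ Γ.Blk (oC P)) (hs : Γ.Supp v fun z => InH P w r z ∧ InBox P R z)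
    (h : ∀ p, InH P w r (Γ.pos p.1) ∧ InBox P R (Γ.pos p.1) →
      (Rt P (Γ.pos (v p).1) ↔ Rt P (Γ.pos p.1))) :
    v ∈ Γ.Blk (oH P) := by
  refine mem_blk hv.1 fun p hp => ?_
  have hu := disp_of_mem Γ hv p
  obtain ⟨ru1, ru2⟩ := range_of_mem hf hv hu
  have h2 := h p (hs p hp)
  generalize Γ.crd (oC P) (v p).1 - Γ.crd (oC P) p.1 = u at hu ru1 ru2
  refine ⟨u, hu, ?_⟩
  have hm := Γ.mem p.1
  have hh : 0 ≤ half P ∧ 2 * half P ≤ (P : ℤ) := by unfold half; omega
  simp only [crd, oC] at ru1 ru2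
  simp only [Rt, hu, Γ.pos_vadd] at h2
  simp only [crd, oH, sub_zero, Int.emod_eq_of_lt hm.1.1 hm.1.2]
  rcases sub_half_emod (P := P) hm.1.1 hm.1.2 with hE | hE <;>
  rcases emod_cases (d := u.1) hm.1.1 hm.1.2 (by omega) (by omega) with hD | hD | hD <;>
  omega

open Classical in
theorem sum_sides {f g : Γ.Form m w r R} {Z S Q : Cell → Prop} {x : X}
    (h : ∀ Z', (Z' = (fun z => Z z ∧ S z) ∨ Z' = fun z => Z z ∧ ¬ S z) →
      Γ.zsum (oC P) Z' (fun p => ind (Q (Γ.pos (f.c p).1)) - ind (Q (Γ.pos p.1))) x =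
        Γ.zsum (oC P) Z' (fun p => ind (Q (Γ.pos (g.c p).1)) - ind (Q (Γ.pos p.1))) x) (b : Bool) :
    Γ.zsum (oC P) (fun z => Z z ∧ decide (S z) = b) (fun p => ind (Q (Γ.pos (f.c p).1))) x =
      Γ.zsum (oC P) (fun z => Z z ∧ decide (S z) = b) (fun p => ind (Q (Γ.pos (g.c p).1))) x := by
  have key : ∀ (Z' : Cell → Prop) (c : Perm (X × Fin m)),
      Γ.zsum (oC P) Z' (fun p => ind (Q (Γ.pos (c p).1)) - ind (Q (Γ.pos p.1))) x =
        Γ.zsum (oC P) Z' (fun p => ind (Q (Γ.pos (c p).1))) x -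
          Γ.zsum (oC P) Z' (fun p => ind (Q (Γ.pos p.1))) x := fun Z' c => by
    rw [zsum, zsum, zsum, ← Finset.sum_sub_distrib]
    refine Finset.sum_congr rfl fun t _ => ?_
    split_ifs <;> simp
  cases b
  · have := h _ (Or.inr rfl)
    rw [key, key] at this
    rw [show (fun z => Z z ∧ decide (S z) = false) = fun z => Z z ∧ ¬ S z by simp]
    linarith
  · have := h _ (Or.inl rfl)
    rw [key, key] at this
    rw [show (fun z => Z z ∧ decide (S z) = true) = fun z => Z z ∧ S z by simp]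
    linarith

/-- Closed forms with the same circulation give the same element. -/
theorem val_eq_of_count (hf : Free X) (hgrid : HasGrids X) (hwr : w ≤ r)
    (hR : 2 * R + 2 ≤ (P : ℤ)) {f g : Γ.Form m w r R} (h1 : f.Closed) (h2 : g.Closed)
    (hn : ∀ x ∈ (Γ.dom (oC P) (m := m)).base, f.count x = g.count x) : f.val L = g.val L := by
  classical
  obtain ⟨vV, mV, sV, pV⟩ := exists_gauge L (Γ := Γ) (fun z => InV P w r z ∧ InBox P R z) (Up P)
    (Rt P) f.c g.c f.c_mem.1 g.c_mem.1 fun x hx b => sum_sides (fun Z' hZ' => by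
      rcases hZ' with rfl | rfl
      · exact hn x hx
      · show Γ.zsum (oC P) (VD P w r R) f.dV x = Γ.zsum (oC P) (VD P w r R) g.dV x
        rw [(quadrant_sums hf hwr h1 hx).2.2, (quadrant_sums hf hwr h2 hx).2.2, hn x hx]) b
  obtain ⟨vH, mH, sH, pH⟩ := exists_gauge L (Γ := Γ) (fun z => InH P w r z ∧ InBox P R z) (Rt P)
    (Up P) f.c g.c f.c_mem.1 g.c_mem.1 fun x hx b => sum_sides (fun Z' hZ' => by
      rcases hZ' with rfl | rfl
      · show Γ.zsum (oC P) (HR P w r R) f.dH x = Γ.zsum (oC P) (HR P w r R) g.dH x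
        rw [(quadrant_sums hf hwr h1 hx).1, (quadrant_sums hf hwr h2 hx).1, hn x hx]
      · show Γ.zsum (oC P) (HL P w r R) f.dH x = Γ.zsum (oC P) (HL P w r R) g.dH x
        rw [(quadrant_sums hf hwr h1 hx).2.1, (quadrant_sums hf hwr h2 hx).2.1, hn x hx]) b
  have bV := mem_V_of_gauge hf hR mV sV fun p hp => (pV p hp).2.1
  have bH := mem_H_of_gauge hf hR mH sH fun p hp => (pH p hp).2.1
  have sV' : Γ.Supp vV (InV P w r) := sV.mono fun z hz => hz.1
  have sH' : Γ.Supp vH (InH P w r) := sH.mono fun z hz => hz.1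
  have dVH : ∀ p, vV p = p ∨ vH p = p := sV'.disj sH' fun z h h' => not_V_and_H hwr h h'
  have cVH : Commute vV vH := Perm.Disjoint.commute dVH
  have cHa : Commute vH f.a := Perm.Disjoint.commute
    (sH'.disj f.a_supp fun z h h' => not_V_and_H hwr h' h)
  let f1 : Γ.Form m w r R :=
    { c := f.c * vH⁻¹ * vV⁻¹, a := vV * f.a, a' := vH * f.a', b := f.b
      c_mem := mul_mem (mul_mem f.c_mem (inv_mem mH)) (inv_mem mV)
      a_mem := mul_mem bV f.a_mem
      a'_mem := mul_mem bH f.a'_mem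
      b_mem := f.b_mem
      c_supp := (f.c_supp.mul (sH.mono fun z hz => hz.2).inv fun z hz => hz).mul
        (sV.mono fun z hz => hz.2).inv fun z hz => hz
      a_supp := sV'.mul f.a_supp fun z hz => hz
      a'_supp := sH'.mul f.a'_supp fun z hz => hz }
  have hc1 : f1.Closed := by
    show f.c * vH⁻¹ * vV⁻¹ * (vV * f.a) * (vH * f.a') * f.b = 1
    have e : f.c * vH⁻¹ * vV⁻¹ * (vV * f.a) * (vH * f.a') * f.b =
        f.c * vH⁻¹ * (f.a * vH) * f.a' * f.b := by group
    rw [e, ← cHa.eq]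
    refine Eq.trans ?_ h1
    group
  have e1 : f1.val L = f.val L := by
    have lc : Commute (Γ.lft L (oV P) f.a) (Γ.lft L (oH P) vH) :=
      Γ.lft_commute L (oV P) f.a_mem bH (f.a_supp.disj sH' fun z h h' => not_V_and_H hwr h h')
    simp only [Form.val, f1]
    rw [Γ.lft_mul L _ (mul_mem f.c_mem (inv_mem mH)) (inv_mem mV),
      Γ.lft_mul L _ f.c_mem (inv_mem mH), Γ.lft_inv L _ mH, Γ.lft_inv L _ mV,
      Γ.lft_mul L _ bV f.a_mem, Γ.lft_mul L _ bH f.a'_mem,
      Γ.lft_agree L (oC P) hf mV bV, Γ.lft_agree L (oC P) hf mH bH]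
    simp only [mul_assoc, inv_mul_cancel_left]
    rw [← mul_assoc (Γ.lft L (oV P) f.a) (Γ.lft L (oH P) vH), lc.eq, mul_assoc,
      inv_mul_cancel_left]
  have sides : ∀ q, (Rt P (Γ.pos (g.c q).1) ↔ Rt P (Γ.pos (f1.c q).1)) ∧
      (Up P (Γ.pos (g.c q).1) ↔ Up P (Γ.pos (f1.c q).1)) := by
    intro q
    show (_ ↔ Rt P (Γ.pos (f.c (vH⁻¹ (vV⁻¹ q))).1)) ∧ (_ ↔ Up P (Γ.pos (f.c (vH⁻¹ (vV⁻¹ q))).1))
    by_cases hV : InV P w r (Γ.pos q.1) ∧ InBox P R (Γ.pos q.1)
    · have hp : InV P w r (Γ.pos (vV⁻¹ q).1) ∧ InBox P R (Γ.pos (vV⁻¹ q).1) := by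
        by_cases hfix : vV⁻¹ q = q
        · rw [hfix]; exact hV
        · exact sV.inv _ fun e => hfix (vV⁻¹.injective e)
      have e : vH⁻¹ (vV⁻¹ q) = vV⁻¹ q := by
        by_contra h; exact not_V_and_H hwr hp.1 (sH'.inv _ h)
      obtain ⟨-, k1, k2⟩ := pV _ hp
      have hq : vV (vV⁻¹ q) = q := by simp
      rw [hq] at k1 k2
      rw [e]
      exact ⟨k2, ((side_V hf hwr h2 q hV.1).1.trans k1).trans
        (side_V hf hwr h1 _ hp.1).1.symm⟩
    · have e : vV⁻¹ q = q := by by_contra h; exact hV (sV.inv _ h)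
      rw [e]
      by_cases hH : InH P w r (Γ.pos q.1) ∧ InBox P R (Γ.pos q.1)
      · have hp : InH P w r (Γ.pos (vH⁻¹ q).1) ∧ InBox P R (Γ.pos (vH⁻¹ q).1) := by
          by_cases hfix : vH⁻¹ q = q
          · rw [hfix]; exact hH
          · exact sH.inv _ fun e => hfix (vH⁻¹.injective e)
        obtain ⟨-, k1, k2⟩ := pH _ hp
        have hq : vH (vH⁻¹ q) = q := by simp
        rw [hq] at k1 k2
        exact ⟨((side_H hf hwr h2 q hH.1).1.trans k1).trans
          (side_H hf hwr h1 _ hp.1).1.symm, k2⟩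
      · have e' : vH⁻¹ q = q := by by_contra h; exact hH (sH.inv _ h)
        rw [e']
        by_cases hb : InBox P R (Γ.pos q.1)
        · have n1 : ¬ InV P w r (Γ.pos q.1) := fun h => hV ⟨h, hb⟩
          have n2 : ¬ InH P w r (Γ.pos q.1) := fun h => hH ⟨h, hb⟩
          obtain ⟨a1, a2⟩ := side_out hf h2 q n1 n2
          obtain ⟨b1, b2⟩ := side_out hf h1 q n1 n2
          exact ⟨a1.trans b1.symm, a2.trans b2.symm⟩
        · rw [c_fix hb, c_fix hb]; exact ⟨Iff.rfl, Iff.rfl⟩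
  have mu : g.c * f1.c⁻¹ ∈ Γ.Blk (oC P) := mul_mem g.c_mem (inv_mem f1.c_mem)
  have hu : g.c * f1.c⁻¹ ∈ Γ.Blk 0 := mem_zero_of_sides hf mu fun p => by
    have := sides (f1.c⁻¹ p)
    simpa using this
  let f2 : Γ.Form m w r R :=
    { f1 with
      c := g.c
      b := f.b * (g.c * f1.c⁻¹)⁻¹
      c_mem := g.c_mem
      b_mem := mul_mem f.b_mem (inv_mem hu)
      c_supp := g.c_supp }
  have hc2 : f2.Closed := by
    show g.c * f1.a * f1.a' * (f.b * (g.c * f1.c⁻¹)⁻¹) = 1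
    have e : g.c * f1.a * f1.a' * (f.b * (g.c * f1.c⁻¹)⁻¹) =
        (g.c * f1.c⁻¹) * (f1.c * f1.a * f1.a' * f1.b) * (g.c * f1.c⁻¹)⁻¹ := by
      show _ = _ * (_ * f.b) * _
      group
    rw [e, show f1.c * f1.a * f1.a' * f1.b = 1 from hc1]
    group
  have e2 : f2.val L = f1.val L := by
    have e : f2.val L = Γ.lft L (oC P) (g.c * f1.c⁻¹) * f1.val L *
        (Γ.lft L (oC P) (g.c * f1.c⁻¹))⁻¹ := by
      simp only [Form.val, f2]
      rw [Γ.lft_mul L 0 f.b_mem (inv_mem hu), Γ.lft_inv L 0 hu,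
        Γ.lft_agree L 0 hf hu mu]
      rw [show Γ.lft L (oC P) g.c = Γ.lft L (oC P) ((g.c * f1.c⁻¹) * f1.c) by
        rw [inv_mul_cancel_right]]
      rw [Γ.lft_mul L _ mu f1.c_mem]
      show _ = _ * (_ * _ * _ * Γ.lft L 0 f.b) * _
      simp only [mul_assoc]
    rw [e, Subgroup.mem_center_iff.1 (Form.val_mem_center L hf hgrid hc1),
      mul_inv_cancel_right]
  rw [← e1, ← e2]
  exact val_eq_of_c_eq L hf hwr hc2 h2 rfl

end Vale.Agent.P196.Flux.Grid
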