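import Vale.Agent.P196.Flux.Defs

/-!
# P196, C7: lifts of fields of slot permutations

A locally constant field of slot permutations over the base of a chart lifts piece by piece; the
result is a homomorphism.
-/

namespace Vale.Agent.P196.Flux

open Equiv Simple

set_option linter.unusedSectionVars false

variable {X : Type} [TopologicalSpace X] [AddAction Cell X] {m : ℕ} {G : Type*} [Group G]
  (L : Lift X m G) {T : Type} [Finite T]

theorem restrict_congr (c : Chart Cell X m T) {U V : Set X} (hU : IsClopen U) (hUc : U ⊆ c.base)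
    (hV : IsClopen V) (hVc : V ⊆ c.base) (h : U = V) :
    c.restrict U hU hUc = c.restrict V hV hVc := by
  subst h; rfl

theorem lift_eq_one_of_empty (c : Chart Cell X m T) (h : c.base = ∅) (σ : Perm T) :
    L.lift c σ = 1 := by
  have e := L.lift_split c ∅ isClopen_empty σ
  have h1 : c.restrict (c.base ∩ ∅) (c.clopen.inter isClopen_empty) Set.inter_subset_left = c := by
    obtain ⟨b, _, _, _⟩ := c
    simp only [Chart.restrict, Chart.mk.injEq]
    simp_all
  have h2 : c.restrict (c.base ∩ ∅ᶜ) (c.clopen.inter isClopen_empty.compl) Set.inter_subset_left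
      = c := by
    obtain ⟨b, _, _, _⟩ := c
    simp only [Chart.restrict, Chart.mk.injEq]
    simp_all
  rw [h1, h2] at e
  exact left_eq_mul.1 e

variable {κ : Type*} [Fintype κ]

/-- The chart over one fibre. -/
def fibre (c : Chart Cell X m T) (φ : LocallyConstant X κ) (k : κ) : Chart Cell X m T :=
  c.restrict (c.base ∩ φ ⁻¹' {k}) (c.clopen.inter (φ.isLocallyConstant.isClopen_fiber k))
    Set.inter_subset_left

theorem fibre_commute (c : Chart Cell X m T) (φ : LocallyConstant X κ) :
    Pairwise fun i j : κ => ∀ σ τ : Perm T,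
      Commute (L.lift (fibre c φ i) σ) (L.lift (fibre c φ j) τ) := by
  intro i j hij σ τ
  refine L.lift_commute _ _ _ _ fun a b _ _ x hx y hy h => hij ?_
  simp only [Chart.pt, fibre, Chart.restrict, Prod.mk.injEq] at h
  obtain rfl := c.disj a b x hx.1 y hy.1 h.2 h.1
  obtain rfl : x = y := (vadd_left_cancel_iff _).1 h.1
  exact hx.2.symm.trans hy.2

/-- Slot permutations chosen fibre by fibre. -/
noncomputable def part (c : Chart Cell X m T) (φ : LocallyConstant X κ) : (κ → Perm T) →* G :=
  MonoidHom.noncommPiCoprod (fun k => L.lift (fibre c φ k)) (fibre_commute L c φ)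

theorem part_mulSingle [DecidableEq κ] (c : Chart Cell X m T) (φ : LocallyConstant X κ) (k : κ)
    (σ : Perm T) : part L c φ (Pi.mulSingle k σ) = L.lift (fibre c φ k) σ :=
  MonoidHom.noncommPiCoprod_mulSingle (fun k => L.lift (fibre c φ k)) k σ

theorem part_indicator [DecidableEq κ] (c : Chart Cell X m T) (φ : LocallyConstant X κ)
    (s : Finset κ) (σ : Perm T) (U : Set X) (hU : IsClopen U) (hUc : U ⊆ c.base)
    (hUs : U = c.base ∩ φ ⁻¹' ↑s) :
    part L c φ (fun k => if k ∈ s then σ else 1) = L.lift (c.restrict U hU hUc) σ := by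
  induction s using Finset.induction generalizing U with
  | empty =>
    rw [lift_eq_one_of_empty L _ (by simp [Chart.restrict, hUs])]
    exact map_one _
  | @insert a s ha ih =>
    have e : (fun k => if k ∈ insert a s then σ else 1) =
        Pi.mulSingle a σ * fun k => if k ∈ s then σ else 1 := by
      funext k
      rcases eq_or_ne k a with rfl | hk
      · simp [ha]
      · simp [hk]
    have hcl : IsClopen (c.base ∩ φ ⁻¹' ↑s) :=
      c.clopen.inter ⟨isOpen_compl_iff.1 (φ.isLocallyConstant (↑s)ᶜ), φ.isLocallyConstant ↑s⟩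
    rw [e, map_mul, part_mulSingle, ih _ hcl Set.inter_subset_left rfl,
      L.lift_split (c.restrict U hU hUc) (φ ⁻¹' {a}) (φ.isLocallyConstant.isClopen_fiber a)]
    congr 1
    · refine congrArg (fun d : Chart Cell X m T => L.lift d σ) ?_
      simp only [fibre, Chart.restrict, Chart.mk.injEq, and_true]
      subst hUs
      ext x
      simp only [Set.mem_inter_iff, Set.mem_preimage, Set.mem_singleton_iff,
        Finset.coe_insert, Set.mem_insert_iff, Finset.mem_coe]
      grind
    · refine congrArg (fun d : Chart Cell X m T => L.lift d σ) ?_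
      simp only [Chart.restrict, Chart.mk.injEq, and_true]
      subst hUs
      ext x
      simp only [Set.mem_inter_iff, Set.mem_preimage, Set.mem_singleton_iff,
        Finset.coe_insert, Set.mem_insert_iff, Finset.mem_coe]
      grind

theorem part_comp {κ' : Type*} [Fintype κ'] (c : Chart Cell X m T) (φ : LocallyConstant X κ)
    (q : κ → κ') (s : κ' → Perm T) :
    part L c φ (fun k => s (q k)) = part L c (φ.map q) s := by
  classical
  let H : Subgroup (κ' → Perm T) :=
    ((part L c φ).comp (Pi.monoidHom fun k => Pi.evalMonoidHom _ (q k))).eqLocus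
      (part L c (φ.map q))
  suffices hs : s ∈ H from hs
  refine Subgroup.pi_mem_of_mulSingle_mem s fun k => ?_
  show part L c φ (fun i => (Pi.mulSingle k (s k) : κ' → Perm T) (q i)) =
    part L c (φ.map q) (Pi.mulSingle k (s k))
  rw [part_mulSingle]
  have e : (fun i => (Pi.mulSingle k (s k) : κ' → Perm T) (q i)) =
      fun i => if i ∈ Finset.univ.filter (fun i => q i = k) then s k else 1 := by
    funext i
    rcases eq_or_ne (q i) k with h | h
    · simp [h]
    · simp [h, Pi.mulSingle_eq_of_ne h]
  rw [e]
  refine (part_indicator L c φ _ _ _ _ _ ?_)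
  ext x
  simp [LocallyConstant.map_apply]

theorem toPerm_part (c : Chart Cell X m T) (φ : LocallyConstant X κ) (s : κ → Perm T) (a : T)
    {x : X} (hx : x ∈ c.base) : L.toPerm (part L c φ s) (c.pt a x) = c.pt (s (φ x) a) x := by
  classical
  let H : Submonoid (κ → Perm T) :=
    { carrier := {s | ∀ a : T, L.toPerm (part L c φ s) (c.pt a x) = c.pt (s (φ x) a) x}
      one_mem' := fun a => by simp
      mul_mem' := fun {s t} hs ht a => by
        rw [map_mul, map_mul, Perm.mul_apply, ht a, hs, Pi.mul_apply, Perm.mul_apply] }
  suffices hs : s ∈ H from hs a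
  refine Submonoid.pi_mem_of_mulSingle_mem s fun k a => ?_
  rw [part_mulSingle, L.toPerm_lift]
  rcases eq_or_ne (φ x) k with h | h
  · rw [h, Pi.mulSingle_eq_same]
    exact (fibre c φ k).perm_pt _ a ⟨hx, h⟩
  · rw [Pi.mulSingle_eq_of_ne h]
    refine (fibre c φ k).perm_of_not _ fun b y hy e => h ?_
    simp only [Chart.pt, fibre, Chart.restrict, Prod.mk.injEq] at e
    obtain rfl := c.disj b a y hy.1 x hx e.2 e.1
    obtain rfl : y = x := (vadd_left_cancel_iff _).1 e.1
    exact hy.2

theorem toPerm_part_of_not (c : Chart Cell X m T) (φ : LocallyConstant X κ) (s : κ → Perm T)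
    {p : X × Fin m} (hp : ∀ a, ∀ x ∈ c.base, c.pt a x ≠ p) :
    L.toPerm (part L c φ s) p = p := by
  classical
  let H : Submonoid (κ → Perm T) :=
    { carrier := {s | L.toPerm (part L c φ s) p = p}
      one_mem' := by simp
      mul_mem' := fun {s t} (hs : _ = p) (ht : _ = p) => by
        show L.toPerm (part L c φ (s * t)) p = p
        rw [map_mul, map_mul, Perm.mul_apply, ht, hs] }
  suffices hs : s ∈ H from hs
  refine Submonoid.pi_mem_of_mulSingle_mem s fun k => ?_
  show L.toPerm (part L c φ (Pi.mulSingle k (s k))) p = p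
  rw [part_mulSingle, L.toPerm_lift]
  exact (fibre c φ k).perm_of_not _ fun b y hy => hp b y hy.1

theorem part_commute (c : Chart Cell X m T) (φ : LocallyConstant X κ) (s : κ → Perm T) (y : G)
    (h : ∀ k, Commute y (L.lift (fibre c φ k) (s k))) : Commute y (part L c φ s) :=
  Finset.noncommProd_commute Finset.univ (fun k => L.lift (fibre c φ k) (s k))
    (fun i _ j _ hij => fibre_commute L c φ hij _ _) y fun k _ => h k

variable [Fintype T] [DecidableEq T]

/-- The lift of a field of slot permutations. -/
noncomputable def fieldHom (c : Chart Cell X m T) : LocallyConstant X (Perm T) →* G where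
  toFun f := part L c f id
  map_one' := by
    have e : part L c (1 : LocallyConstant X (Perm T)) id =
        part L c (LocallyConstant.const X ()) (fun _ => (1 : Perm T)) :=
      (part_comp L c (LocallyConstant.const X ()) (fun _ => (1 : Perm T)) id).symm
    rw [e]
    exact map_one _
  map_mul' f g := by
    let φ : LocallyConstant X (Perm T × Perm T) :=
      ⟨fun x => (f x, g x), f.isLocallyConstant.prodMk g.isLocallyConstant⟩
    have h1 := part_comp L c φ (fun p => p.1 * p.2) id
    have h2 := part_comp L c φ Prod.fst id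
    have h3 := part_comp L c φ Prod.snd id
    rw [show φ.map (fun p => p.1 * p.2) = f * g from LocallyConstant.ext fun _ => rfl] at h1
    rw [show φ.map Prod.fst = f from LocallyConstant.ext fun _ => rfl] at h2
    rw [show φ.map Prod.snd = g from LocallyConstant.ext fun _ => rfl] at h3
    rw [← h1, ← h2, ← h3, ← map_mul]
    rfl

theorem fieldHom_apply (c : Chart Cell X m T) (f : LocallyConstant X (Perm T)) :
    fieldHom L c f = part L c f id := rfl

theorem toPerm_fieldHom (c : Chart Cell X m T) (f : LocallyConstant X (Perm T)) (a : T) {x : X}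
    (hx : x ∈ c.base) : L.toPerm (fieldHom L c f) (c.pt a x) = c.pt (f x a) x :=
  toPerm_part L c f id a hx

open Classical in
/-- The field equal to `σ` on a clopen set. -/
noncomputable def indicator (U : Set X) (hU : IsClopen U) (σ : Perm T) :
    LocallyConstant X (Perm T) :=
  ⟨fun x => if x ∈ U then σ else 1, (IsLocallyConstant.iff_exists_open _).2 fun x => by
    by_cases hx : x ∈ U
    · exact ⟨U, hU.isOpen, hx, fun y hy => by simp [hx, hy]⟩
    · exact ⟨Uᶜ, hU.compl.isOpen, hx, fun y hy => by
        simp only [Set.mem_compl_iff] at hy; simp [hx, hy]⟩⟩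

theorem fieldHom_indicator (c : Chart Cell X m T) (U : Set X) (hU : IsClopen U) (hUc : U ⊆ c.base)
    (σ : Perm T) : fieldHom L c (indicator U hU σ) = L.lift (c.restrict U hU hUc) σ := by
  classical
  let φ : LocallyConstant X Bool :=
    ⟨fun x => decide (x ∈ U), (IsLocallyConstant.iff_exists_open _).2 fun x => by
      by_cases hx : x ∈ U
      · exact ⟨U, hU.isOpen, hx, fun y hy => by simp [hx, hy]⟩
      · exact ⟨Uᶜ, hU.compl.isOpen, hx, fun y hy => by
          simp only [Set.mem_compl_iff] at hy; simp [hx, hy]⟩⟩
  have h1 := part_comp L c φ (fun b => if b = true then σ else 1) id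
  rw [show φ.map (fun b => if b = true then σ else 1) = indicator U hU σ from
    LocallyConstant.ext fun x => by simp [indicator, φ]] at h1
  rw [fieldHom_apply, ← h1]
  have := part_indicator L c φ {true} σ U hU hUc (by ext x; simpa [φ] using fun h => hUc h)
  simpa using this

end Vale.Agent.P196.Flux
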