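import Vale.Agent.P196.Flux.Rep

/-!
# P196, C7: the flux theorem

At every large side every kernel element is a power of one unit, with an exponent bounded
independently of the side. Hence the kernel has a cyclic subgroup of finite index.
-/

namespace Vale.Agent.P196.Flux

open Equiv Simple Grid

set_option linter.unusedSectionVars false

variable {X : Type} [TopologicalSpace X] [AddAction Cell X] [ContinuousConstVAdd Cell X]
  [CompactSpace X] [T2Space X] {m : ℕ} {G : Type*} [Group G] (L : Lift X m G)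

/-- Grids of every size force freeness. -/
theorem free_of_hasGrids (h : HasGrids X) : Free X := by
  intro v x hv
  obtain ⟨P, hP, ⟨Γ⟩⟩ := h (v.1.natAbs + v.2.natAbs + 1)
  have hm := Γ.mem x
  have e := Γ.pos_vadd v x
  rw [hv, Prod.ext_iff] at e
  have key : ∀ z d : ℤ, 0 ≤ z → z < P → z = (z + d) % (P : ℤ) → d.natAbs < P → d = 0 := by
    intro z d hz hz' he hd
    rcases emod_cases (d := d) hz hz' (by omega) (by omega) with h | h | h <;> omega
  exact Prod.ext (key _ _ hm.1.1 hm.1.2 e.1 (by omega)) (key _ _ hm.2.1 hm.2.2 e.2 (by omega))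

variable {P : ℕ} {Γ : Grid X P}

theorem count_one (w r R : ℤ) (x : X) :
    (oneForm (Γ := Γ) (m := m) w r R).count x = 0 := by
  classical
  simp [Form.count, zsum, Form.dV, oneForm]

theorem one_closed (w r R : ℤ) : (oneForm (Γ := Γ) (m := m) w r R).Closed := by
  simp [Form.Closed, oneForm]

theorem count_widen {w r R R' : ℤ} (f : Γ.Form m w r R) (hR : R ≤ R') (x : X) :
    (f.widen le_rfl hR).count x = f.count x := by
  classical
  simp only [Form.count, zsum]
  refine Finset.sum_congr rfl fun t _ => ?_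
  generalize (Γ.dom (oC P)).pt t x = p
  by_cases hb : InBox P R (Γ.pos p.1)
  · have hb' : InBox P R' (Γ.pos p.1) := by unfold InBox Near at *; omega
    have e : VU P w r R' (Γ.pos p.1) ↔ VU P w r R (Γ.pos p.1) := by simp [VU, hb, hb']
    by_cases h : VU P w r R (Γ.pos p.1)
    · rw [if_pos h, if_pos (e.2 h)]; rfl
    · rw [if_neg h, if_neg (mt e.1 h)]
  · have e : f.c p = p := c_fix hb
    have e1 : ¬ VU P w r R (Γ.pos p.1) := fun h => hb h.1.2
    rw [if_neg e1]
    split_ifs
    · show ind (Rt P (Γ.pos (f.c p).1)) - _ = 0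
      rw [e, sub_self]
    · rfl

variable (Γ)

/-- The unit element of a grid. -/
noncomputable def unitVal (hm : 0 < m) (hP : 6 ≤ P) : G :=
  (((⟨true, 1, ⟨0, hm⟩, le_rfl, by omega⟩ : Unit0 P m).form Γ 1 1 2 le_rfl le_rfl le_rfl
    one_lt_two).val L)

/-- The unit or its inverse. -/
noncomputable def signedUnit (hm : 0 < m) (hP : 6 ≤ P) (s : Bool) : G :=
  bif s then unitVal L Γ hm hP else (unitVal L Γ hm hP)⁻¹

theorem unit_val (hgrid : HasGrids X) (u : Unit0 P m) (hm : 0 < m) (hP : 10 ≤ P)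
    {w r R : ℤ} (hw : 1 ≤ w) (hwr : w ≤ r) (hr : r ≤ u.j) (hR : u.j < R)
    (hPR : 2 * R + 2 ≤ (P : ℤ)) :
    (u.form Γ w r R hw hwr hr hR).val L = signedUnit L Γ hm (by omega) u.s := by
  have hf := free_of_hasGrids hgrid
  have := u.one_le
  let u1 : Unit0 P m := ⟨true, 1, ⟨0, hm⟩, le_rfl, by omega⟩
  let u2 : Unit0 P m := ⟨false, 2, ⟨0, hm⟩, by norm_num, by omega⟩
  have h1 : unitVal L Γ hm (by omega) =
      (u1.form Γ 1 1 (max R 3) le_rfl le_rfl le_rfl (by simp [u1])).val L := rfl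
  have h12 : (u1.form Γ 1 1 (max R 3) le_rfl le_rfl le_rfl (by simp [u1])).val L *
      (u2.form Γ 1 1 (max R 3) le_rfl le_rfl (by simp [u2]) (by simp [u2])).val L = 1 := by
    obtain ⟨k, kc, kv, kn, -⟩ := Γ.mul_disjoint L
      (u1.form Γ 1 1 (max R 3) le_rfl le_rfl le_rfl (by simp [u1]))
      (u2.form Γ 1 1 (max R 3) le_rfl le_rfl (by simp [u2]) (by simp [u2]))
      (u1.form_closed Γ _ _ _ _ _ _ _) (u2.form_closed Γ _ _ _ _ _ _ _)
      (Four P true 1) (Four P false 2) (fun z a b => by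
        simp only [Four, ptA, ptU, ptL, ptD, flipX, cond_true, cond_false, Prod.ext_iff] at a b
        omega)
      (u1.form_supp Γ _ _ _ _ _ _ _) (u2.form_supp Γ _ _ _ _ _ _ _)
    rw [← kv, ← val_oneForm L (Γ := Γ) 1 1 (max R 3)]
    refine val_eq_of_count L hf hgrid le_rfl (by omega) kc (one_closed _ _ _) fun x hx => ?_
    rw [kn, count_one, u1.form_count Γ _ _ _ _ _ _ _ (by omega) hx,
      u2.form_count Γ _ _ _ _ _ _ _ (by omega) hx]
    simp [u1, u2]
  have key : ∀ v : Unit0 P m, v.s = u.s → (hv : v.j < max R 3) →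
      (u.form Γ w r R hw hwr hr hR).val L =
      (v.form Γ 1 1 (max R 3) le_rfl le_rfl v.one_le hv).val L := by
    intro v hs hv
    show (u.form Γ 1 1 (max R 3) le_rfl le_rfl (by omega) (by omega)).val L = _
    refine val_eq_of_count L hf hgrid le_rfl (by omega) (u.form_closed Γ _ _ _ _ _ _ _)
      (v.form_closed Γ _ _ _ _ _ _ _) fun x hx => ?_
    rw [u.form_count Γ _ _ _ _ _ _ _ (by omega) hx, v.form_count Γ _ _ _ _ _ _ _ (by omega) hx, hs]
  cases hs : u.s
  · rw [key u2 (by simp [u2, hs]) (by simp [u2]), signedUnit, cond_false, h1]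
    exact eq_inv_of_mul_eq_one_right h12
  · rw [key u1 (by simp [u1, hs]) (by simp [u1]), signedUnit, cond_true, h1]

theorem exists_power (hgrid : HasGrids X) (hm : 0 < m) (hP : 10 ≤ P) (s : Bool) {w r : ℤ}
    (hw : 1 ≤ w) (hwr : w ≤ r) (R : ℤ) (hPR : 2 * R + 4 ≤ (P : ℤ)) :
    ∀ n : ℕ, r + n ≤ R → ∃ f : Γ.Form m w r R, f.Closed ∧
      f.val L = (signedUnit L Γ hm (by omega) s) ^ n ∧
      (∀ x ∈ (Γ.dom (oC P) (m := m)).base, f.count x = (bif s then 1 else -1) * (n : ℤ)) ∧
      (let K := fun z => ∃ i : ℕ, i < n ∧ Four P s (r + i) z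
       Γ.Supp f.c K ∧ Γ.Supp f.a K ∧ Γ.Supp f.a' K ∧ Γ.Supp f.b K) := by
  intro n
  induction n with
  | zero =>
    intro _
    exact ⟨oneForm w r R, one_closed _ _ _, by rw [val_oneForm, pow_zero],
      fun x _ => by simp [count_one], supp_one _, supp_one _, supp_one _, supp_one _⟩
  | succ n ih =>
    intro hn
    push_cast at hn
    obtain ⟨f, fc, fv, fn, fs⟩ := ih (by omega)
    let u : Unit0 P m := ⟨s, r + n, ⟨0, hm⟩, by omega, by omega⟩
    obtain ⟨k, kc, kv, kn, k1, k2, k3, k4⟩ := Γ.mul_disjoint L f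
      (u.form Γ w r R hw hwr (by simp [u]) (by show r + (n : ℤ) < R; omega)) fc
      (u.form_closed Γ _ _ _ _ _ _ _) _ (Four P s (r + n)) (fun z a b => by
        obtain ⟨i, hi, a⟩ := a
        simp only [Four, ptA, ptU, ptL, ptD, flipX, Prod.ext_iff] at a b
        cases s <;> simp only [cond_true, cond_false] at a b <;> omega)
      fs (u.form_supp Γ _ _ _ _ _ _ _)
    refine ⟨k, kc, ?_, fun x hx => ?_, ?_⟩
    · rw [kv, fv, unit_val L Γ hgrid u hm hP hw hwr _ _ (by omega), pow_succ]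
    · rw [kn, fn x hx, u.form_count Γ _ _ _ _ _ _ _ (by omega) hx]
      push_cast
      simp only [u]
      ring
    · have hK : ∀ z, (∃ i : ℕ, i < n ∧ Four P s (r + i) z) ∨ Four P s (r + n) z →
          ∃ i : ℕ, i < n + 1 ∧ Four P s (r + i) z := by
        rintro z (⟨i, hi, h⟩ | h)
        · exact ⟨i, by omega, h⟩
        · exact ⟨n, by omega, h⟩
      exact ⟨k1.mono hK, k2.mono hK, k3.mono hK, k4.mono hK⟩

/-- At every large side a kernel element is a bounded power of the unit. -/
theorem ker_eq_power (hgrid : HasGrids X) (hmin : Minimal X) (hm : 0 < m) {k : G}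
    (hk : k ∈ L.toPerm.ker) : ∃ B M : ℕ, ∀ (P : ℕ) (Γ : Grid X P) (hP : 6 ≤ P), B ≤ P →
      ∃ n : ℤ, n.natAbs ≤ M ∧ k = (unitVal L Γ hm hP) ^ n := by
  have hf := free_of_hasGrids hgrid
  obtain ⟨B₀, hB₀⟩ := exists_form L hf k
  let B := B₀ + 1
  let M := (2 * (2 * (B : ℤ))).toNat * (4 * (B : ℤ)).toNat * m
  refine ⟨2 * (4 * B + M) + 20 * B + 20, M, fun P Γ hP6 hP => ?_⟩
  obtain ⟨f, hfv⟩ := hB₀ B (by omega) P Γ (by omega)
  have hfc : f.Closed := by
    show f.c * f.a * f.a' * f.b = 1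
    rw [← Form.toPerm_val L, hfv]
    exact hk
  obtain ⟨n, hn⟩ := exists_count hf hmin (by omega) (by omega) (by omega) hfc
  obtain ⟨n, hn, hnM⟩ : ∃ n : ℤ, (∀ x ∈ (Γ.dom (oC P) (m := m)).base, f.count x = n) ∧
      n.natAbs ≤ M := by
    rcases (Γ.dom (oC P) (m := m)).base.eq_empty_or_nonempty with he | ⟨x, hx⟩
    · exact ⟨0, fun x hx => absurd hx (by simp [he]), by simp⟩
    · refine ⟨n, hn, ?_⟩
      have := count_le (by omega) f hx
      rw [hn x hx, Int.abs_eq_natAbs] at this
      exact_mod_cast this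
  refine ⟨n, hnM, ?_⟩
  let s : Bool := decide (0 ≤ n)
  obtain ⟨g, gc, gv, gn, -⟩ := exists_power L Γ hgrid hm (by omega) s (w := 2 * (B : ℤ))
    (r := 3 * (B : ℤ)) (by omega) (by omega) (4 * (B : ℤ) + M) (by omega) n.natAbs (by omega)
  let fw := f.widen (le_refl _) (show (4 * (B : ℤ)) ≤ 4 * B + M by omega)
  have e : fw.val L = g.val L := by
    refine val_eq_of_count L hf hgrid (by omega) (by omega) hfc gc fun x hx => ?_
    rw [count_widen, hn x hx, gn x hx]
    rcases le_or_gt 0 n with h | h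
    · simp only [s, decide_eq_true h, cond_true, one_mul]
      omega
    · simp only [s, decide_eq_false (not_le.2 h), cond_false]
      omega
  rw [← hfv, show f.val L = fw.val L from rfl, e, gv]
  rcases le_or_gt 0 n with h | h
  · simp only [s, decide_eq_true h, signedUnit, cond_true]
    rw [← zpow_natCast, show ((n.natAbs : ℕ) : ℤ) = n by omega]
  · simp only [s, decide_eq_false (not_le.2 h), signedUnit, cond_false]
    rw [← zpow_natCast, inv_zpow', show -((n.natAbs : ℕ) : ℤ) = n by omega]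

/-- The flux theorem: the kernel of a lift is central and finitely generated. -/
theorem ker_central_fg (hgrid : HasGrids X) (hmin : Minimal X) (hm : 0 < m) :
    L.toPerm.ker ≤ Subgroup.center G ∧ L.toPerm.ker.FG := by
  classical
  refine ⟨ker_le_center L (free_of_hasGrids hgrid) hgrid, ?_⟩
  by_cases hbot : L.toPerm.ker = ⊥
  · rw [hbot]; exact ⟨∅, by simp⟩
  obtain ⟨k0, hk0, hne⟩ : ∃ k0 ∈ L.toPerm.ker, k0 ≠ 1 := by
    by_contra h
    push Not at h
    exact hbot ((Subgroup.eq_bot_iff_forall _).2 h)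
  obtain ⟨B0, M0, h0⟩ := ker_eq_power L hgrid hmin hm hk0
  let Good : Finset G → Prop := fun s => (∀ k ∈ s, k ∈ L.toPerm.ker) ∧
    ∀ k ∈ s, ∀ k' ∈ s, k⁻¹ * k' ∈ Subgroup.zpowers k0 → k = k'
  have hbound : ∀ s, Good s → s.card ≤ M0 := by
    intro s hs
    choose! B M hBM using fun (k : G) (hk : k ∈ s) => ker_eq_power L hgrid hmin hm (hs.1 k hk)
    obtain ⟨P, hP, ⟨Γ⟩⟩ := hgrid (B0 + s.sup B + 6)
    obtain ⟨n0, hn0, e0⟩ := h0 P Γ (by omega) (by omega)
    have hn0ne : n0 ≠ 0 := fun h => hne (by rw [e0, h, zpow_zero])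
    choose! e he using fun (k : G) (hk : k ∈ s) => hBM k hk P Γ (by omega) (by
      have := Finset.le_sup (f := B) hk
      omega)
    have hinj : Set.InjOn (fun k => e k % n0) s := by
      intro k hk k' hk' h
      refine hs.2 k hk k' hk' (Subgroup.mem_zpowers_iff.2 ?_)
      obtain ⟨q, hq⟩ := Int.dvd_of_emod_eq_zero
        (Int.emod_eq_emod_iff_emod_sub_eq_zero.1 h.symm)
      refine ⟨q, ?_⟩
      rw [e0, (he k hk).2, (he k' hk').2, ← zpow_neg, ← zpow_add, ← zpow_mul]
      congr 1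
      omega
    have := Finset.card_le_card_of_injOn (fun k => e k % n0)
      (t := Finset.Ico (0 : ℤ) (n0.natAbs : ℤ)) (fun k _ => by
        simp only [Finset.coe_Ico, Set.mem_Ico]
        refine ⟨Int.emod_nonneg _ hn0ne, ?_⟩
        have := Int.emod_lt_abs (e k) hn0ne
        rwa [Int.abs_eq_natAbs] at this) hinj
    simp only [Int.card_Ico] at this
    omega
  obtain ⟨s, hs, hmax⟩ : ∃ s, Good s ∧ ∀ s', Good s' → s'.card ≤ s.card := by
    have hex : ∃ c, ∀ s, Good s → s.card ≤ c := ⟨M0, hbound⟩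
    by_contra h
    push Not at h
    have grow : ∀ c : ℕ, ∃ s, Good s ∧ c ≤ s.card := by
      intro c
      induction c with
      | zero => exact ⟨∅, ⟨by simp, by simp⟩, le_rfl⟩
      | succ c ih =>
        obtain ⟨s, hs, hc⟩ := ih
        obtain ⟨s', hs', hc'⟩ := h s hs
        exact ⟨s', hs', by omega⟩
    obtain ⟨c, hc⟩ := hex
    obtain ⟨s, hs, h'⟩ := grow (c + 1)
    have := hc s hs
    omega
  refine ⟨insert k0 s, le_antisymm ((Subgroup.closure_le _).2 ?_) fun k hk => ?_⟩
  · intro k hk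
    rcases Finset.mem_insert.1 (Finset.mem_coe.1 hk) with rfl | hk
    · exact hk0
    · exact hs.1 k hk
  · have hk0' : k0 ∈ Subgroup.closure ((insert k0 s : Finset G) : Set G) :=
      Subgroup.subset_closure (by simp)
    have hs' : ∀ t ∈ s, t ∈ Subgroup.closure ((insert k0 s : Finset G) : Set G) := fun t ht =>
      Subgroup.subset_closure (by simp [ht])
    by_cases hks : k ∈ s
    · exact hs' k hks
    have hng : ¬ Good (insert k s) := fun hg => by
      have := hmax _ hg
      rw [Finset.card_insert_of_notMem hks] at this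
      omega
    obtain ⟨t, ht, hmem⟩ : ∃ t ∈ s, t⁻¹ * k ∈ Subgroup.zpowers k0 := by
      by_contra h
      push Not at h
      refine hng ⟨fun a ha => ?_, fun a ha b hb hab => ?_⟩
      · rcases Finset.mem_insert.1 ha with rfl | ha
        · exact hk
        · exact hs.1 a ha
      · rcases Finset.mem_insert.1 ha with ea | ha <;> rcases Finset.mem_insert.1 hb with eb | hb
        · rw [ea, eb]
        · rw [ea] at hab
          exact absurd (by simpa using inv_mem hab) (h b hb)
        · rw [eb] at hab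
          exact absurd hab (h a ha)
        · exact hs.2 a ha b hb hab
    have := mul_mem (hs' t ht) ((Subgroup.zpowers_le.2 hk0') hmem)
    rwa [mul_inv_cancel_left] at this

end Vale.Agent.P196.Flux
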