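import Vale.Agent.P196.Flux.Agree

/-!
# P196, C7: normal forms and centrality

A form is corner boxes times vertical strips times horizontal strips times tiles. Left
multiplication by a chart transposition keeps the shape and widens the zones by its displacement.
The same cutting shows that the kernel is central.
-/

namespace Vale.Agent.P196.Flux.Grid

open Equiv Simple

set_option linter.unusedSectionVars false

variable {X : Type} [TopologicalSpace X] [AddAction Cell X] [ContinuousConstVAdd Cell X]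
  [CompactSpace X] [T2Space X] {m : ℕ} {G : Type*} [Group G] (L : Lift X m G) {P : ℕ}
  (Γ : Grid X P)

/-- Half of the side. -/
def half (P : ℕ) : ℤ := ((P / 2 : ℕ) : ℤ)

/-- Offset of the squares around the corners. -/
def oC (P : ℕ) : Cell := (half P, half P)

/-- Offset of the squares around the vertical edges. -/
def oV (P : ℕ) : Cell := (half P, 0)

/-- Offset of the squares around the horizontal edges. -/
def oH (P : ℕ) : Cell := (0, half P)

/-- At distance less than `k` from a grid line. -/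
def Near (P : ℕ) (k t : ℤ) : Prop := t < k ∨ (P : ℤ) - k ≤ t

/-- The boxes around the corners. -/
def InBox (P : ℕ) (R : ℤ) (z : Cell) : Prop := Near P R z.1 ∧ Near P R z.2

/-- The strips along the vertical edges. -/
def InV (P : ℕ) (w r : ℤ) (z : Cell) : Prop := Near P w z.1 ∧ ¬ Near P r z.2

/-- The strips along the horizontal edges. -/
def InH (P : ℕ) (w r : ℤ) (z : Cell) : Prop := Near P w z.2 ∧ ¬ Near P r z.1

/-- Moved points have their position in `S`. -/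
def Supp (g : Perm (X × Fin m)) (S : Cell → Prop) : Prop := ∀ p, g p ≠ p → S (Γ.pos p.1)

variable {Γ}

theorem supp_one (S : Cell → Prop) : Γ.Supp (m := m) 1 S := fun _ h => absurd rfl h

theorem Supp.mono {g : Perm (X × Fin m)} {S S' : Cell → Prop} (h : Γ.Supp g S)
    (hS : ∀ z, S z → S' z) : Γ.Supp g S' := fun p hp => hS _ (h p hp)

theorem Supp.mul {g g' : Perm (X × Fin m)} {S S' : Cell → Prop} (h : Γ.Supp g S)
    (h' : Γ.Supp g' S) (hS : ∀ z, S z → S' z) : Γ.Supp (g * g') S' := fun p hp => by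
  by_cases e : g' p = p
  · exact hS _ (h p fun e' => hp (by rw [Perm.mul_apply, e, e']))
  · exact hS _ (h' p e)

theorem Supp.inv {g : Perm (X × Fin m)} {S : Cell → Prop} (h : Γ.Supp g S) : Γ.Supp g⁻¹ S :=
  fun p hp => h p fun e => hp (by
    conv_lhs => rw [← e]
    rw [Perm.inv_def, Equiv.symm_apply_apply])

theorem Supp.disj {g g' : Perm (X × Fin m)} {S S' : Cell → Prop} (h : Γ.Supp g S)
    (h' : Γ.Supp g' S') (hd : ∀ z, S z → S' z → False) (p : X × Fin m) : g p = p ∨ g' p = p := by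
  by_contra hp
  push Not at hp
  exact hd _ (h p hp.1) (h' p hp.2)

variable (Γ)

/-- A normal form. -/
structure Form (m : ℕ) (w r R : ℤ) where
  c : Perm (X × Fin m)
  a : Perm (X × Fin m)
  a' : Perm (X × Fin m)
  b : Perm (X × Fin m)
  c_mem : c ∈ Γ.Blk (oC P)
  a_mem : a ∈ Γ.Blk (oV P)
  a'_mem : a' ∈ Γ.Blk (oH P)
  b_mem : b ∈ Γ.Blk 0
  c_supp : Γ.Supp c (InBox P R)
  a_supp : Γ.Supp a (InV P w r)
  a'_supp : Γ.Supp a' (InH P w r)

variable {Γ}

/-- The element of a form. -/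
noncomputable def Form.val {w r R : ℤ} (f : Γ.Form m w r R) : G :=
  Γ.lft L (oC P) f.c * Γ.lft L (oV P) f.a * Γ.lft L (oH P) f.a' * Γ.lft L 0 f.b

/-- Wider zones. -/
def Form.widen {w r R w' R' : ℤ} (f : Γ.Form m w r R) (hw : w ≤ w') (hR : R ≤ R') :
    Γ.Form m w' r R' where
  c := f.c
  a := f.a
  a' := f.a'
  b := f.b
  c_mem := f.c_mem
  a_mem := f.a_mem
  a'_mem := f.a'_mem
  b_mem := f.b_mem
  c_supp := f.c_supp.mono fun z hz => by unfold InBox Near at *; omega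
  a_supp := f.a_supp.mono fun z hz => by unfold InV Near at *; omega
  a'_supp := f.a'_supp.mono fun z hz => by unfold InH Near at *; omega

theorem Form.val_widen {w r R w' R' : ℤ} (f : Γ.Form m w r R) (hw : w ≤ w') (hR : R ≤ R') :
    (f.widen hw hR).val L = f.val L := rfl

/-- The trivial form. -/
def oneForm (w r R : ℤ) : Γ.Form m w r R where
  c := 1
  a := 1
  a' := 1
  b := 1
  c_mem := one_mem _
  a_mem := one_mem _
  a'_mem := one_mem _
  b_mem := one_mem _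
  c_supp := supp_one _
  a_supp := supp_one _
  a'_supp := supp_one _

theorem val_oneForm (w r R : ℤ) : (oneForm (Γ := Γ) (m := m) w r R).val L = 1 := by
  simp [Form.val, oneForm, lft_one]

variable (Γ)

/-- Points where a condition on the positions of both slot points holds. -/
def pairSet (c : Chart Cell X m (Fin 2)) (Q : Cell → Cell → Prop) : Set X :=
  {x | Q (Γ.pos ((c.slot 0).1 +ᵥ x)) (Γ.pos ((c.slot 1).1 +ᵥ x))}

theorem isClopen_pairSet (c : Chart Cell X m (Fin 2)) (Q : Cell → Cell → Prop) :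
    IsClopen (Γ.pairSet c Q) := by
  have h : IsLocallyConstant fun x =>
      (Γ.pos ((c.slot 0).1 +ᵥ x), Γ.pos ((c.slot 1).1 +ᵥ x)) :=
    (Γ.loc.comp_continuous (continuous_const_vadd _)).prodMk
      (Γ.loc.comp_continuous (continuous_const_vadd _))
  exact ⟨isOpen_compl_iff.1 (h {q | ¬ Q q.1 q.2}), h {q | Q q.1 q.2}⟩

theorem moved_piece (c : Chart Cell X m (Fin 2)) (p : X × Fin m)
    (hp : c.perm (swap 0 1) p ≠ p) :
    ∃ x ∈ c.base, ∃ a b : Fin 2, a ≠ b ∧ c.pt a x = p ∧ c.perm (swap 0 1) p = c.pt b x := by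
  obtain ⟨a, x, hx, rfl⟩ : ∃ a, ∃ x ∈ c.base, c.pt a x = p := by
    by_contra hne
    push Not at hne
    exact hp (c.perm_of_not _ hne)
  refine ⟨x, hx, a, swap 0 1 a, ?_, rfl, c.perm_pt _ a hx⟩
  fin_cases a <;> simp

/-- The point has its position in `S` and stays in its square when moved by `d`. -/
def Stays (o : Cell) (S : Cell → Prop) (y : X) (d : Cell) : Prop :=
  S (Γ.pos y) ∧ (0 ≤ (Γ.crd o y).1 + d.1 ∧ (Γ.crd o y).1 + d.1 < P) ∧
    (0 ≤ (Γ.crd o y).2 + d.2 ∧ (Γ.crd o y).2 + d.2 < P)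

/-- A chart transposition lies in a square group as soon as both of its points stay in a square. -/
theorem piece_spec (c : Chart Cell X m (Fin 2)) (hf : Free X) (o : Cell) (S : Cell → Prop)
    (h : ∀ x ∈ c.base, ∀ a b : Fin 2, a ≠ b →
      Γ.Stays o S (c.pt a x).1 ((c.slot b).1 - (c.slot a).1)) :
    c.perm (swap 0 1) ∈ Γ.Blk o ∧ Γ.Supp (c.perm (swap 0 1)) S ∧
      L.lift c (swap 0 1) = Γ.lft L o (c.perm (swap 0 1)) := by
  have hmem : c.perm (swap 0 1) ∈ Γ.Blk o := mem_blk (continuous_chartPerm _ _) fun p hp => by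
    obtain ⟨x, hx, a, b, hab, rfl, e⟩ := moved_piece c p hp
    refine ⟨(c.slot b).1 - (c.slot a).1, ?_, (h x hx a b hab).2⟩
    rw [e]
    simp only [Chart.pt, ← add_vadd, sub_add_cancel]
  refine ⟨hmem, fun p hp => ?_, Γ.lift_eq_lft L o hf c _ hmem⟩
  obtain ⟨x, hx, a, b, hab, rfl, -⟩ := moved_piece c p hp
  exact (h x hx a b hab).1

/-- A chart lift commutes with a canonical lift moving other points. -/
theorem lift_commute_lft {o : Cell} {T : Type} [Finite T] (c : Chart Cell X m T) (σ : Perm T)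
    {g : Perm (X × Fin m)} (hg : g ∈ Γ.Blk o) (hd : ∀ p, g p = p ∨ c.perm σ p = p) :
    Commute (L.lift c σ) (Γ.lft L o g) := by
  rw [Γ.lft_of_mem L o hg, fieldHom_apply]
  refine part_commute L _ _ _ _ fun k => L.lift_commute _ _ _ _ fun a b ha hb x hx y hy e => ?_
  rcases hd ((Γ.dom o).pt b y) with e1 | e1
  · apply hb
    have hk : Γ.field o ⟨g, hg⟩ y = k := hy.2
    show k b = b
    rw [← hk, Γ.field_apply o _ hy.1, e1, Γ.slotOf_pt o b hy.1]
  · have e' : c.pt a x = (Γ.dom o).pt b y := e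
    rw [← e', c.perm_pt σ a hx] at e1
    simp only [Chart.pt, Prod.mk.injEq] at e1
    exact ha (c.disj _ _ x hx x hx e1.2 e1.1)

theorem pos_pt_shift (c : Chart Cell X m (Fin 2)) (a b : Fin 2) (x : X) :
    Γ.pos (c.pt b x).1 =
      (((Γ.pos (c.pt a x).1).1 + ((c.slot b).1 - (c.slot a).1).1) % (P : ℤ),
        ((Γ.pos (c.pt a x).1).2 + ((c.slot b).1 - (c.slot a).1).2) % (P : ℤ)) := by
  rw [← Γ.pos_vadd]
  simp only [Chart.pt, ← add_vadd, sub_add_cancel]

theorem near_shift {z d k D : ℤ} (hz : 0 ≤ z) (hz' : z < (P : ℤ)) (hk : 0 ≤ k) (hd : -D ≤ d)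
    (hd' : d ≤ D) (hkD : k + D ≤ (P : ℤ)) (h : Near P k z) :
    Near P (k + D) ((z + d) % (P : ℤ)) := by
  unfold Near at *
  rcases lt_or_ge (z + d) 0 with e | e
  · rw [← Int.add_emod_right, Int.emod_eq_of_lt (by omega) (by omega)]; omega
  · rcases lt_or_ge (z + d) (P : ℤ) with e' | e'
    · rw [Int.emod_eq_of_lt e e']; omega
    · rw [← Int.sub_emod_right, Int.emod_eq_of_lt (by omega) (by omega)]; omega

/-- A point near a grid line stays in the square centred on the line. -/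
theorem centred_range {z d k D : ℤ} (hz : 0 ≤ z) (hz' : z < (P : ℤ)) (hd : -D ≤ d) (hd' : d ≤ D)
    (hk : 0 ≤ k) (hP : 2 * (k + D) + 2 ≤ (P : ℤ)) (h : Near P k z) :
    0 ≤ (z - half P) % (P : ℤ) + d ∧ (z - half P) % (P : ℤ) + d < P := by
  unfold Near half at *
  rcases h with h | h
  · rw [← Int.add_emod_right, Int.emod_eq_of_lt (by omega) (by omega)]; omega
  · rw [Int.emod_eq_of_lt (by omega) (by omega)]; omega

/-- A point far from the grid lines stays in its tile. -/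
theorem tile_range {z d D : ℤ} (hd : -D ≤ d) (hd' : d ≤ D) (h : ¬ Near P D z) :
    0 ≤ z + d ∧ z + d < (P : ℤ) := by
  unfold Near at *; omega

/-- A chart transposition keeps the shape of a form. -/
theorem step (hf : Free X) (c : Chart Cell X m (Fin 2)) (D : ℤ)
    (hD : ∀ a b, |((c.slot b).1 - (c.slot a).1).1| ≤ D ∧ |((c.slot b).1 - (c.slot a).1).2| ≤ D)
    {w r R : ℤ} (f : Γ.Form m w r R) (h1 : D ≤ w) (h2 : w + D ≤ R) (h3 : r ≤ R)
    (h4 : 2 * (R + 2 * D) + 2 ≤ (P : ℤ)) :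
    ∃ f' : Γ.Form m (w + D) r (R + D), f'.val L = L.lift c (swap 0 1) * f.val L := by
  have hD0 : 0 ≤ D := le_trans (abs_nonneg _) (hD 0 0).1
  let Q1 : Cell → Cell → Prop := fun z z' => InBox P R z ∨ InBox P R z'
  let Q2 : Cell → Cell → Prop := fun z z' => Near P w z.1 ∨ Near P w z'.1
  let Q3 : Cell → Cell → Prop := fun z z' => Near P w z.2 ∨ Near P w z'.2
  have k1 := Γ.isClopen_pairSet c Q1
  have k2 := Γ.isClopen_pairSet c Q2
  have k3 := Γ.isClopen_pairSet c Q3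
  let c1 := c.restrict (c.base ∩ Γ.pairSet c Q1) (c.clopen.inter k1) Set.inter_subset_left
  let c234 := c.restrict (c.base ∩ (Γ.pairSet c Q1)ᶜ) (c.clopen.inter k1.compl) Set.inter_subset_left
  let c2 := c234.restrict (c234.base ∩ Γ.pairSet c Q2) (c234.clopen.inter k2) Set.inter_subset_left
  let c34 := c234.restrict (c234.base ∩ (Γ.pairSet c Q2)ᶜ) (c234.clopen.inter k2.compl)
    Set.inter_subset_left
  let c3 := c34.restrict (c34.base ∩ Γ.pairSet c Q3) (c34.clopen.inter k3) Set.inter_subset_left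
  let c4 := c34.restrict (c34.base ∩ (Γ.pairSet c Q3)ᶜ) (c34.clopen.inter k3.compl)
    Set.inter_subset_left
  have esplit : L.lift c (swap 0 1) = L.lift c1 (swap 0 1) * (L.lift c2 (swap 0 1) *
      (L.lift c3 (swap 0 1) * L.lift c4 (swap 0 1))) := by
    rw [L.lift_split c _ k1, L.lift_split c234 _ k2, L.lift_split c34 _ k3]
  have data : ∀ x : X, ∀ a b : Fin 2, a ≠ b →
      let z := Γ.pos (c.pt a x).1
      let z' := Γ.pos (c.pt b x).1
      let d := (c.slot b).1 - (c.slot a).1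
      (z' = ((z.1 + d.1) % (P : ℤ), (z.2 + d.2) % (P : ℤ))) ∧
      ((0 ≤ z.1 ∧ z.1 < (P : ℤ)) ∧ (0 ≤ z.2 ∧ z.2 < (P : ℤ))) ∧
      ((-D ≤ d.1 ∧ d.1 ≤ D) ∧ (-D ≤ d.2 ∧ d.2 ≤ D)) ∧
      (∀ Q : Cell → Cell → Prop, (∀ u v, Q u v → Q v u) → (x ∈ Γ.pairSet c Q ↔ Q z z')) := by
    intro x a b hab z z' d
    refine ⟨Γ.pos_pt_shift c a b x, Γ.mem _, ⟨abs_le.1 (hD a b).1, abs_le.1 (hD a b).2⟩,
      fun Q hQ => ?_⟩
    fin_cases a <;> fin_cases b <;> first | exact absurd rfl hab | exact Iff.rfl |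
      exact ⟨hQ _ _, hQ _ _⟩
  have sym1 : ∀ u v, Q1 u v → Q1 v u := fun u v => Or.symm
  have sym2 : ∀ u v, Q2 u v → Q2 v u := fun u v => Or.symm
  have sym3 : ∀ u v, Q3 u v → Q3 v u := fun u v => Or.symm
  have self : ∀ (x : X) (a b : Fin 2), a ≠ b → ∀ z : ℤ × ℤ, z = Γ.pos (c.pt a x).1 →
      (Γ.crd (oC P) (c.pt a x).1 = ((z.1 - half P) % (P : ℤ), (z.2 - half P) % (P : ℤ))) ∧
      (Γ.crd (oV P) (c.pt a x).1 = ((z.1 - half P) % (P : ℤ), z.2)) ∧
      (Γ.crd (oH P) (c.pt a x).1 = (z.1, (z.2 - half P) % (P : ℤ))) ∧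
      Γ.crd 0 (c.pt a x).1 = z := by
    rintro x a b - z rfl
    have h := Γ.mem (c.pt a x).1
    simp [crd, oC, oV, oH, Int.emod_eq_of_lt h.1.1 h.1.2, Int.emod_eq_of_lt h.2.1 h.2.2]
  obtain ⟨m1, s1, e1⟩ := Γ.piece_spec L c1 hf (oC P) (InBox P (R + D)) fun x hx a b hab => by
    obtain ⟨hz', ⟨hz1, hz2⟩, ⟨hd1, hd2⟩, hQ⟩ := data x a b hab
    obtain ⟨hz'', ⟨hw1, hw2⟩, ⟨he1, he2⟩, -⟩ := data x b a hab.symm
    have hbox : InBox P (R + D) (Γ.pos (c.pt a x).1) ∧
        (Near P (R + D) (Γ.pos (c.pt a x).1).1 ∧ Near P (R + D) (Γ.pos (c.pt a x).1).2) := by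
      rcases (hQ Q1 sym1).1 hx.2 with h | h
      · have : InBox P (R + D) (Γ.pos (c.pt a x).1) := by unfold InBox Near at *; omega
        exact ⟨this, this⟩
      · rw [hz'']
        have u1 := near_shift hw1.1 hw1.2 (by omega) he1.1 he1.2 (by omega) h.1
        have u2 := near_shift hw2.1 hw2.2 (by omega) he2.1 he2.2 (by omega) h.2
        exact ⟨⟨u1, u2⟩, u1, u2⟩
    show Γ.Stays _ _ (c.pt a x).1 ((c.slot b).1 - (c.slot a).1)
    refine ⟨hbox.1, ?_⟩
    rw [(self x a b hab _ rfl).1]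
    exact ⟨centred_range hz1.1 hz1.2 hd1.1 hd1.2 (by omega) (by omega) hbox.2.1,
      centred_range hz2.1 hz2.2 hd2.1 hd2.2 (by omega) (by omega) hbox.2.2⟩
  obtain ⟨m2, s2, e2⟩ := Γ.piece_spec L c2 hf (oV P)
      (fun z => InV P (w + D) r z ∧ ¬ InBox P R z) fun x hx a b hab => by
    obtain ⟨hz', ⟨hz1, hz2⟩, ⟨hd1, hd2⟩, hQ⟩ := data x a b hab
    obtain ⟨hz'', ⟨hw1, hw2⟩, ⟨he1, he2⟩, -⟩ := data x b a hab.symm
    have q1 : ¬ Q1 _ _ := fun h => hx.1.2 ((hQ Q1 sym1).2 h)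
    have nx : Near P (w + D) (Γ.pos (c.pt a x).1).1 := by
      rcases (hQ Q2 sym2).1 hx.2 with h | h
      · unfold Near at *; omega
      · rw [hz'']; exact near_shift hw1.1 hw1.2 (by omega) he1.1 he1.2 (by omega) h
    have ny : ¬ Near P R (Γ.pos (c.pt a x).1).2 := fun h => q1 (Or.inl ⟨by unfold Near at *; omega, h⟩)
    show Γ.Stays _ _ (c.pt a x).1 ((c.slot b).1 - (c.slot a).1)
    refine ⟨⟨⟨nx, by unfold Near at *; omega⟩, fun h => q1 (Or.inl h)⟩, ?_⟩
    rw [(self x a b hab _ rfl).2.1]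
    exact ⟨centred_range hz1.1 hz1.2 hd1.1 hd1.2 (by omega) (by omega) nx,
      tile_range hd2.1 hd2.2 (by unfold Near at *; omega)⟩
  obtain ⟨m3, s3, e3⟩ := Γ.piece_spec L c3 hf (oH P)
      (fun z => InH P (w + D) r z ∧ ¬ InBox P R z ∧ ¬ Near P w z.1) fun x hx a b hab => by
    obtain ⟨hz', ⟨hz1, hz2⟩, ⟨hd1, hd2⟩, hQ⟩ := data x a b hab
    obtain ⟨hz'', ⟨hw1, hw2⟩, ⟨he1, he2⟩, -⟩ := data x b a hab.symm
    have q1 : ¬ Q1 _ _ := fun h => hx.1.1.2 ((hQ Q1 sym1).2 h)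
    have q2 : ¬ Q2 _ _ := fun h => hx.1.2 ((hQ Q2 sym2).2 h)
    have ny : Near P (w + D) (Γ.pos (c.pt a x).1).2 := by
      rcases (hQ Q3 sym3).1 hx.2 with h | h
      · unfold Near at *; omega
      · rw [hz'']; exact near_shift hw2.1 hw2.2 (by omega) he2.1 he2.2 (by omega) h
    have nx : ¬ Near P R (Γ.pos (c.pt a x).1).1 := fun h => q1 (Or.inl ⟨h, by unfold Near at *; omega⟩)
    show Γ.Stays _ _ (c.pt a x).1 ((c.slot b).1 - (c.slot a).1)
    refine ⟨⟨⟨ny, by unfold Near at *; omega⟩, fun h => q1 (Or.inl h), fun h => q2 (Or.inl h)⟩, ?_⟩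
    rw [(self x a b hab _ rfl).2.2.1]
    exact ⟨tile_range hd1.1 hd1.2 (by unfold Near at *; omega),
      centred_range hz2.1 hz2.2 hd2.1 hd2.2 (by omega) (by omega) ny⟩
  obtain ⟨m4, s4, e4⟩ := Γ.piece_spec L c4 hf 0
      (fun z => ¬ InBox P R z ∧ ¬ Near P w z.1 ∧ ¬ Near P w z.2) fun x hx a b hab => by
    obtain ⟨hz', ⟨hz1, hz2⟩, ⟨hd1, hd2⟩, hQ⟩ := data x a b hab
    have q1 : ¬ Q1 _ _ := fun h => hx.1.1.2 ((hQ Q1 sym1).2 h)
    have q2 : ¬ Q2 _ _ := fun h => hx.1.2 ((hQ Q2 sym2).2 h)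
    have q3 : ¬ Q3 _ _ := fun h => hx.2 ((hQ Q3 sym3).2 h)
    show Γ.Stays _ _ (c.pt a x).1 ((c.slot b).1 - (c.slot a).1)
    refine ⟨⟨fun h => q1 (Or.inl h), fun h => q2 (Or.inl h), fun h => q3 (Or.inl h)⟩, ?_⟩
    rw [(self x a b hab _ rfl).2.2.2]
    simp only [Q2, Q3] at q2 q3
    exact ⟨tile_range hd1.1 hd1.2 (by unfold Near at *; omega),
      tile_range hd2.1 hd2.2 (by unfold Near at *; omega)⟩
  refine ⟨{ c := c1.perm (swap 0 1) * f.c, a := c2.perm (swap 0 1) * f.a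
            a' := c3.perm (swap 0 1) * f.a', b := c4.perm (swap 0 1) * f.b
            c_mem := mul_mem m1 f.c_mem, a_mem := mul_mem m2 f.a_mem
            a'_mem := mul_mem m3 f.a'_mem, b_mem := mul_mem m4 f.b_mem
            c_supp := s1.mul (f.c_supp.mono fun z hz => by unfold InBox Near at *; omega)
              fun z hz => hz
            a_supp := (s2.mono fun z hz => hz.1).mul
              (f.a_supp.mono fun z hz => by unfold InV Near at *; omega) fun z hz => hz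
            a'_supp := (s3.mono fun z hz => hz.1).mul
              (f.a'_supp.mono fun z hz => by unfold InH Near at *; omega) fun z hz => hz }, ?_⟩
  have C2c := Γ.lft_commute L (oV P) m2 f.c_mem (s2.disj f.c_supp fun z h h' => h.2 h')
  have C3c := Γ.lft_commute L (oH P) m3 f.c_mem (s3.disj f.c_supp fun z h h' => h.2.1 h')
  have C3a := Γ.lft_commute L (oH P) m3 f.a_mem (s3.disj f.a_supp fun z h h' => h.2.2 h'.1)
  have C4c := Γ.lft_commute L 0 m4 f.c_mem (s4.disj f.c_supp fun z h h' => h.1 h')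
  have C4a := Γ.lft_commute L 0 m4 f.a_mem (s4.disj f.a_supp fun z h h' => h.2.1 h'.1)
  have C4a' := Γ.lft_commute L 0 m4 f.a'_mem (s4.disj f.a'_supp fun z h h' => h.2.2 h'.1)
  simp only [Form.val]
  rw [Γ.lft_mul L _ m1 f.c_mem, Γ.lft_mul L _ m2 f.a_mem, Γ.lft_mul L _ m3 f.a'_mem,
    Γ.lft_mul L _ m4 f.b_mem, esplit, e1, e2, e3, e4]
  set t1 := Γ.lft L (oC P) (c1.perm (swap 0 1))
  set t2 := Γ.lft L (oV P) (c2.perm (swap 0 1))
  set t3 := Γ.lft L (oH P) (c3.perm (swap 0 1))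
  set t4 := Γ.lft L 0 (c4.perm (swap 0 1))
  set vc := Γ.lft L (oC P) f.c
  set va := Γ.lft L (oV P) f.a
  set va' := Γ.lft L (oH P) f.a'
  set vb := Γ.lft L 0 f.b
  calc t1 * vc * (t2 * va) * (t3 * va') * (t4 * vb)
      = t1 * (vc * t2) * va * (t3 * va' * t4) * vb := by group
    _ = t1 * (t2 * vc) * va * (t3 * t4 * va') * vb := by
        rw [← C2c.eq, mul_assoc t3 va' t4, ← C4a'.eq, ← mul_assoc t3 t4 va']
    _ = t1 * t2 * ((vc * va) * (t3 * t4)) * va' * vb := by group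
    _ = t1 * t2 * ((t3 * t4) * (vc * va)) * va' * vb := by
        rw [(((C3c.mul_left C4c).mul_right (C3a.mul_left C4a)).eq)]
    _ = t1 * (t2 * (t3 * t4)) * (vc * va * va' * vb) := by group

end Vale.Agent.P196.Flux.Grid
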