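import Vale.Agent.P196.Flux.Equal

/-!
# P196, C7: unit closed forms

For every `j` and orientation a closed form moving four points of every square: one particle goes
round every corner at distance `j`. Forms at different `j` multiply disjointly.
-/

namespace Vale.Agent.P196.Flux.Grid

open Equiv Simple

set_option linter.unusedSectionVars false

variable {X : Type} [TopologicalSpace X] [AddAction Cell X] [ContinuousConstVAdd Cell X]
  [CompactSpace X] [T2Space X] {m : ℕ} {G : Type*} [Group G] (L : Lift X m G) {P : ℕ}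
  (Γ : Grid X P)

theorem pos_nat (z : ℤ) (hP : 0 < P) : (z % (P : ℤ)).toNat < P := by
  have h1 := Int.emod_lt_of_pos z (show (0 : ℤ) < P by omega)
  omega

/-- The slot at position `z` in the squares of offset `o`. -/
def slotAt (hP : 0 < P) (o z : Cell) (ι : Fin m) : (Fin P × Fin P) × Fin m :=
  ((⟨((z.1 - o.1) % (P : ℤ)).toNat, pos_nat _ hP⟩,
    ⟨((z.2 - o.2) % (P : ℤ)).toNat, pos_nat _ hP⟩), ι)

theorem slotOf_eq (hP : 0 < P) (o : Cell) (p : X × Fin m) :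
    Γ.slotOf o p = slotAt hP o (Γ.pos p.1) p.2 := rfl

theorem blockPerm_mem (o : Cell) (σ : Perm ((Fin P × Fin P) × Fin m)) :
    (Γ.dom o).perm σ ∈ Γ.Blk o := by
  refine ⟨continuous_chartPerm _ _, fun p => ?_⟩
  have h := (Γ.dom o).perm_pt σ (Γ.slotOf o p) (Γ.anc_mem o p.1)
  rw [Γ.pt_slotOf o p] at h
  rw [h, Γ.anc_pt o _ (Γ.anc_mem o p.1)]

theorem blockPerm_apply (o : Cell) (σ : Perm ((Fin P × Fin P) × Fin m)) (p : X × Fin m) :
    (Γ.dom o).perm σ p = (Γ.dom o).pt (σ (Γ.slotOf o p)) (Γ.anc o p.1) := by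
  conv_lhs => rw [← Γ.pt_slotOf o p]
  exact (Γ.dom o).perm_pt σ _ (Γ.anc_mem o p.1)

/-- A slot permutation moves a point at `z` to the position of the image slot. -/
theorem move_spec (hP : 0 < P) (o : Cell) (σ : Perm ((Fin P × Fin P) × Fin m)) (p : X × Fin m)
    {z z' : Cell} {ι : Fin m} (hz : Γ.pos p.1 = z) (hι : p.2 = ι)
    (hσ : σ (slotAt hP o z ι) = slotAt hP o z' ι) (hz1 : 0 ≤ z'.1 ∧ z'.1 < P)
    (hz2 : 0 ≤ z'.2 ∧ z'.2 < P) :
    Γ.pos ((Γ.dom o).perm σ p).1 = z' ∧ ((Γ.dom o).perm σ p).2 = ι ∧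
      ((Γ.dom o).perm σ p).1 = (((z'.1 - o.1) % (P : ℤ) - (z.1 - o.1) % (P : ℤ),
        (z'.2 - o.2) % (P : ℤ) - (z.2 - o.2) % (P : ℤ)) : Cell) +ᵥ p.1 := by
  have hP' : (0 : ℤ) < P := by omega
  rw [Γ.blockPerm_apply, Γ.slotOf_eq hP, hz, hι, hσ]
  have hc := Γ.crd_pt o (slotAt hP o z' ι) (Γ.anc_mem o p.1 (m := m))
  simp only [slotAt, Int.toNat_of_nonneg (Int.emod_nonneg _ hP'.ne')] at hc
  refine ⟨?_, rfl, ?_⟩
  · rw [Γ.pos_of_crd o]
    simp only [slotAt] at hc ⊢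
    rw [hc]
    simp [Int.emod_eq_of_lt hz1.1 hz1.2, Int.emod_eq_of_lt hz2.1 hz2.2]
  · simp only [Chart.pt, dom, slotAt, anc, crd, hz, Int.toNat_of_nonneg (Int.emod_nonneg _ hP'.ne'),
      ← add_vadd]
    congr 1

theorem move_not (o : Cell) (σ : Perm ((Fin P × Fin P) × Fin m)) (p : X × Fin m)
    (hσ : σ (Γ.slotOf o p) = Γ.slotOf o p) : (Γ.dom o).perm σ p = p := by
  rw [Γ.blockPerm_apply, hσ, Γ.pt_slotOf]

/-- Mirror of the first coordinate. -/
def flipX (P : ℕ) (s : Bool) (x : ℤ) : ℤ := bif s then x else (P : ℤ) - 1 - x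

/-- The four positions. -/
def ptA (P : ℕ) (s : Bool) (j : ℤ) : Cell := (flipX P s j, 0)
/-- The four positions. -/
def ptU (P : ℕ) (s : Bool) (j : ℤ) : Cell := (flipX P s ((P : ℤ) - 1), j)
/-- The four positions. -/
def ptL (P : ℕ) (s : Bool) (j : ℤ) : Cell := (flipX P s ((P : ℤ) - 1 - j), (P : ℤ) - 1)
/-- The four positions. -/
def ptD (P : ℕ) (s : Bool) (j : ℤ) : Cell := (flipX P s 0, (P : ℤ) - 1 - j)

/-- The positions moved at distance `j`. -/
def Four (P : ℕ) (s : Bool) (j : ℤ) (z : Cell) : Prop :=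
  z = ptA P s j ∨ z = ptU P s j ∨ z = ptL P s j ∨ z = ptD P s j

theorem slotAt_inj (hP : 0 < P) {o z z' : Cell} {ι ι' : Fin m}
    (hz : (0 ≤ z.1 ∧ z.1 < P) ∧ (0 ≤ z.2 ∧ z.2 < P))
    (hz' : (0 ≤ z'.1 ∧ z'.1 < P) ∧ (0 ≤ z'.2 ∧ z'.2 < P))
    (h : slotAt hP o z ι = slotAt hP o z' ι') : z = z' ∧ ι = ι' := by
  have hP' : (P : ℤ) ≠ 0 := by omega
  simp only [slotAt, Prod.mk.injEq, Fin.mk.injEq] at h
  obtain ⟨⟨h1, h2⟩, h3⟩ := h
  have e1 : (z.1 - o.1) % (P : ℤ) = (z'.1 - o.1) % (P : ℤ) := by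
    have := Int.emod_nonneg (z.1 - o.1) hP'
    have := Int.emod_nonneg (z'.1 - o.1) hP'
    omega
  have e2 : (z.2 - o.2) % (P : ℤ) = (z'.2 - o.2) % (P : ℤ) := by
    have := Int.emod_nonneg (z.2 - o.2) hP'
    have := Int.emod_nonneg (z'.2 - o.2) hP'
    omega
  have f1 := congrArg (fun a => (a + o.1) % (P : ℤ)) e1
  have f2 := congrArg (fun a => (a + o.2) % (P : ℤ)) e2
  simp only [Int.emod_add_emod, sub_add_cancel, Int.emod_eq_of_lt hz.1.1 hz.1.2,
    Int.emod_eq_of_lt hz'.1.1 hz'.1.2] at f1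
  simp only [Int.emod_add_emod, sub_add_cancel, Int.emod_eq_of_lt hz.2.1 hz.2.2,
    Int.emod_eq_of_lt hz'.2.1 hz'.2.2] at f2
  exact ⟨Prod.ext f1 f2, h3⟩

/-- Data of a unit form. -/
structure Unit0 (P : ℕ) (m : ℕ) where
  s : Bool
  j : ℤ
  ι : Fin m
  one_le : 1 ≤ j
  big : 2 * j + 4 ≤ (P : ℤ)

namespace Unit0

variable (u : Unit0 P m)

theorem hP (u : Unit0 P m) : 0 < P := by have := u.one_le; have := u.big; omega

/-- A slot of the unit. -/
def sl (o z : Cell) : (Fin P × Fin P) × Fin m := slotAt u.hP o z u.ι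

/-- The rotation around the corner, reversed. -/
def rot : Perm ((Fin P × Fin P) × Fin m) :=
  swap (u.sl (oC P) (ptL P u.s u.j)) (u.sl (oC P) (ptD P u.s u.j)) *
    swap (u.sl (oC P) (ptU P u.s u.j)) (u.sl (oC P) (ptL P u.s u.j)) *
    swap (u.sl (oC P) (ptA P u.s u.j)) (u.sl (oC P) (ptU P u.s u.j))

/-- The exchange along a vertical edge. -/
def exV : Perm ((Fin P × Fin P) × Fin m) :=
  swap (u.sl (oV P) (ptU P u.s u.j)) (u.sl (oV P) (ptD P u.s u.j))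

/-- The exchange along a horizontal edge. -/
def exH : Perm ((Fin P × Fin P) × Fin m) :=
  swap (u.sl (oH P) (ptA P u.s u.j)) (u.sl (oH P) (ptL P u.s u.j))

theorem range_pts : ((0 ≤ (ptA P u.s u.j).1 ∧ (ptA P u.s u.j).1 < P) ∧
      (0 ≤ (ptA P u.s u.j).2 ∧ (ptA P u.s u.j).2 < P)) ∧
    ((0 ≤ (ptU P u.s u.j).1 ∧ (ptU P u.s u.j).1 < P) ∧
      (0 ≤ (ptU P u.s u.j).2 ∧ (ptU P u.s u.j).2 < P)) ∧
    ((0 ≤ (ptL P u.s u.j).1 ∧ (ptL P u.s u.j).1 < P) ∧
      (0 ≤ (ptL P u.s u.j).2 ∧ (ptL P u.s u.j).2 < P)) ∧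
    ((0 ≤ (ptD P u.s u.j).1 ∧ (ptD P u.s u.j).1 < P) ∧
      (0 ≤ (ptD P u.s u.j).2 ∧ (ptD P u.s u.j).2 < P)) := by
  have := u.one_le
  have := u.big
  simp only [ptA, ptU, ptL, ptD, flipX]
  cases u.s <;> simp only [cond_true, cond_false] <;> omega

theorem ne_pts : ptA P u.s u.j ≠ ptU P u.s u.j ∧ ptA P u.s u.j ≠ ptL P u.s u.j ∧
    ptA P u.s u.j ≠ ptD P u.s u.j ∧ ptU P u.s u.j ≠ ptL P u.s u.j ∧
    ptU P u.s u.j ≠ ptD P u.s u.j ∧ ptL P u.s u.j ≠ ptD P u.s u.j := by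
  have := u.one_le
  have := u.big
  simp only [ne_eq, ptA, ptU, ptL, ptD, flipX, Prod.mk.injEq]
  cases u.s <;> simp only [cond_true, cond_false] <;> omega

theorem sl_ne {o z z' : Cell} (hz : (0 ≤ z.1 ∧ z.1 < P) ∧ (0 ≤ z.2 ∧ z.2 < P))
    (hz' : (0 ≤ z'.1 ∧ z'.1 < P) ∧ (0 ≤ z'.2 ∧ z'.2 < P)) (h : z ≠ z') : u.sl o z ≠ u.sl o z' :=
  fun e => h (slotAt_inj u.hP hz hz' e).1

theorem rot_A : u.rot (u.sl (oC P) (ptA P u.s u.j)) = u.sl (oC P) (ptD P u.s u.j) := by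
  obtain ⟨rA, rU, rL, rD⟩ := u.range_pts
  rw [rot, Perm.mul_apply, Perm.mul_apply, swap_apply_left, swap_apply_left, swap_apply_left]

theorem rot_U : u.rot (u.sl (oC P) (ptU P u.s u.j)) = u.sl (oC P) (ptA P u.s u.j) := by
  obtain ⟨rA, rU, rL, rD⟩ := u.range_pts
  obtain ⟨n1, n2, n3, n4, n5, n6⟩ := u.ne_pts
  rw [rot, Perm.mul_apply, Perm.mul_apply, swap_apply_right,
    swap_apply_of_ne_of_ne (u.sl_ne rA rU n1) (u.sl_ne rA rL n2),
    swap_apply_of_ne_of_ne (u.sl_ne rA rL n2) (u.sl_ne rA rD n3)]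

theorem rot_L : u.rot (u.sl (oC P) (ptL P u.s u.j)) = u.sl (oC P) (ptU P u.s u.j) := by
  obtain ⟨rA, rU, rL, rD⟩ := u.range_pts
  obtain ⟨n1, n2, n3, n4, n5, n6⟩ := u.ne_pts
  rw [rot, Perm.mul_apply, Perm.mul_apply,
    swap_apply_of_ne_of_ne (u.sl_ne rL rA n2.symm) (u.sl_ne rL rU n4.symm), swap_apply_right,
    swap_apply_of_ne_of_ne (u.sl_ne rU rL n4) (u.sl_ne rU rD n5)]

theorem rot_D : u.rot (u.sl (oC P) (ptD P u.s u.j)) = u.sl (oC P) (ptL P u.s u.j) := by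
  obtain ⟨rA, rU, rL, rD⟩ := u.range_pts
  obtain ⟨n1, n2, n3, n4, n5, n6⟩ := u.ne_pts
  rw [rot, Perm.mul_apply, Perm.mul_apply,
    swap_apply_of_ne_of_ne (u.sl_ne rD rA n3.symm) (u.sl_ne rD rU n5.symm),
    swap_apply_of_ne_of_ne (u.sl_ne rD rU n5.symm) (u.sl_ne rD rL n6.symm), swap_apply_right]

theorem supp_of_swap (o : Cell) {z z' : Cell} (p : X × Fin m)
    (h : (Γ.dom o).perm (swap (u.sl o z) (u.sl o z')) p ≠ p)
    (hz : (0 ≤ z.1 ∧ z.1 < P) ∧ (0 ≤ z.2 ∧ z.2 < P))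
    (hz' : (0 ≤ z'.1 ∧ z'.1 < P) ∧ (0 ≤ z'.2 ∧ z'.2 < P)) :
    (Γ.pos p.1 = z ∨ Γ.pos p.1 = z') ∧ p.2 = u.ι := by
  by_contra hc
  refine h (Γ.move_not o _ p (swap_apply_of_ne_of_ne (fun e => hc ?_) fun e => hc ?_))
  · obtain ⟨e1, e2⟩ := slotAt_inj u.hP (Γ.mem p.1) hz e
    exact ⟨Or.inl e1, e2⟩
  · obtain ⟨e1, e2⟩ := slotAt_inj u.hP (Γ.mem p.1) hz' e
    exact ⟨Or.inr e1, e2⟩

theorem rot_supp (p : X × Fin m) (h : (Γ.dom (oC P)).perm u.rot p ≠ p) :
    Four P u.s u.j (Γ.pos p.1) ∧ p.2 = u.ι := by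
  by_contra hc
  obtain ⟨rA, rU, rL, rD⟩ := u.range_pts
  have key : ∀ z : Cell, (0 ≤ z.1 ∧ z.1 < P) ∧ (0 ≤ z.2 ∧ z.2 < P) → Four P u.s u.j z →
      Γ.slotOf (oC P) p ≠ u.sl (oC P) z := by
    intro z hz h4 e
    obtain ⟨e1, e2⟩ := slotAt_inj u.hP (Γ.mem p.1) hz e
    exact hc ⟨e1.symm ▸ h4, e2⟩
  have kA := key _ rA (Or.inl rfl)
  have kU := key _ rU (Or.inr (Or.inl rfl))
  have kL := key _ rL (Or.inr (Or.inr (Or.inl rfl)))
  have kD := key _ rD (Or.inr (Or.inr (Or.inr rfl)))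
  refine h (Γ.move_not _ _ p ?_)
  rw [rot, Perm.mul_apply, Perm.mul_apply, swap_apply_of_ne_of_ne kA kU,
    swap_apply_of_ne_of_ne kU kL, swap_apply_of_ne_of_ne kL kD]

/-- The product of the rotation and the exchanges preserves the tiles. -/
theorem rest_mem :
    (Γ.dom (oC P)).perm u.rot * (Γ.dom (oV P)).perm u.exV * (Γ.dom (oH P)).perm u.exH ∈
      Γ.Blk 0 (m := m) := by
  have hP := u.hP
  obtain ⟨rA, rU, rL, rD⟩ := u.range_pts
  obtain ⟨n1, n2, n3, n4, n5, n6⟩ := u.ne_pts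
  have := u.one_le
  have := u.big
  have hh : 0 ≤ half P ∧ 2 * half P ≤ (P : ℤ) ∧ (P : ℤ) ≤ 2 * half P + 1 := by unfold half; omega
  refine mem_blk (((Γ.blockPerm_mem _ _).1.comp (Γ.blockPerm_mem _ _).1).comp
    (Γ.blockPerm_mem _ _).1) fun p hp => ?_
  simp only [Perm.mul_apply] at hp ⊢
  have fixH : ∀ q : X × Fin m, (Γ.pos q.1 = ptU P u.s u.j ∨ Γ.pos q.1 = ptD P u.s u.j) →
      (Γ.dom (oH P)).perm u.exH q = q := by
    intro q hq
    by_contra h
    obtain ⟨e, -⟩ := u.supp_of_swap Γ (oH P) q h rA rL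
    rcases hq with hq | hq <;> rcases e with e | e <;> rw [hq] at e
    exacts [n1 e.symm, n4 e, n3 e.symm, n6 e.symm]
  have fixV : ∀ q : X × Fin m, (Γ.pos q.1 = ptA P u.s u.j ∨ Γ.pos q.1 = ptL P u.s u.j) →
      (Γ.dom (oV P)).perm u.exV q = q := by
    intro q hq
    by_contra h
    obtain ⟨e, -⟩ := u.supp_of_swap Γ (oV P) q h rU rD
    rcases hq with hq | hq <;> rcases e with e | e <;> rw [hq] at e
    exacts [n1 e, n3 e, n4 e.symm, n6 e]
  have hfour : Four P u.s u.j (Γ.pos p.1) ∧ p.2 = u.ι := by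
    by_contra hc
    have e1 : (Γ.dom (oH P)).perm u.exH p = p := by
      by_contra h
      obtain ⟨e, e'⟩ := u.supp_of_swap Γ (oH P) p h rA rL
      exact hc ⟨e.elim Or.inl fun e => Or.inr (Or.inr (Or.inl e)), e'⟩
    have e2 : (Γ.dom (oV P)).perm u.exV p = p := by
      by_contra h
      obtain ⟨e, e'⟩ := u.supp_of_swap Γ (oV P) p h rU rD
      exact hc ⟨e.elim (fun e => Or.inr (Or.inl e)) fun e => Or.inr (Or.inr (Or.inr e)), e'⟩
    have e3 : (Γ.dom (oC P)).perm u.rot p = p := by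
      by_contra h; exact hc (u.rot_supp Γ p h)
    rw [e1, e2, e3] at hp
    exact hp rfl
  obtain ⟨h4, hι⟩ := hfour
  have small : ∀ z : ℤ, 0 ≤ z → z < half P → (z - half P) % (P : ℤ) = z - half P + P := by
    intro z h1 h2
    rw [← Int.add_emod_right, Int.emod_eq_of_lt (by omega) (by omega)]
  have large : ∀ z : ℤ, half P ≤ z → z < P → (z - half P) % (P : ℤ) = z - half P := fun z h1 h2 =>
    Int.emod_eq_of_lt (by omega) (by omega)
  have sj := small u.j (by omega) (by omega)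
  have s0 := small 0 le_rfl (by omega)
  have l1 := large ((P : ℤ) - 1) (by omega) (by omega)
  have lj := large ((P : ℤ) - 1 - u.j) (by omega) (by omega)
  have l2 : ((P : ℤ) - 1 - ((P : ℤ) - 1 - u.j)) = u.j := by ring
  have l3 : ((P : ℤ) - 1 - ((P : ℤ) - 1)) = 0 := by ring
  have t1 : u.j % (P : ℤ) = u.j := Int.emod_eq_of_lt (by omega) (by omega)
  have t2 : ((P : ℤ) - 1) % (P : ℤ) = (P : ℤ) - 1 := Int.emod_eq_of_lt (by omega) (by omega)
  have t3 : ((P : ℤ) - 1 - u.j) % (P : ℤ) = (P : ℤ) - 1 - u.j :=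
    Int.emod_eq_of_lt (by omega) (by omega)
  have crd0 : Γ.crd 0 p.1 = Γ.pos p.1 := by
    have hm := Γ.mem p.1
    simp [crd, Int.emod_eq_of_lt hm.1.1 hm.1.2, Int.emod_eq_of_lt hm.2.1 hm.2.2]
  rcases h4 with h | h | h | h
  · obtain ⟨q1, q2, q3⟩ := Γ.move_spec hP (oH P) u.exH p h hι (swap_apply_left _ _) rL.1 rL.2
    obtain ⟨v1, v2, v3⟩ := Γ.move_spec hP (oC P) u.rot _ q1 q2 u.rot_L rU.1 rU.2
    rw [fixV _ (Or.inr q1)]
    rw [q3, ← add_vadd] at v3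
    refine ⟨_, v3, ?_⟩
    rw [crd0, h]
    simp only [ptA, ptU, ptL, ptD, flipX, oH, oC, Prod.fst_add, Prod.snd_add, sub_zero]
    cases u.s <;> simp only [cond_true, cond_false, Int.zero_emod, l2, l3, sj, s0, l1, lj, t1, t2,
      t3] <;> omega
  · rw [fixH _ (Or.inl h)]
    obtain ⟨q1, q2, q3⟩ := Γ.move_spec hP (oV P) u.exV p h hι (swap_apply_left _ _) rD.1 rD.2
    obtain ⟨v1, v2, v3⟩ := Γ.move_spec hP (oC P) u.rot _ q1 q2 u.rot_D rL.1 rL.2
    rw [q3, ← add_vadd] at v3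
    refine ⟨_, v3, ?_⟩
    rw [crd0, h]
    simp only [ptA, ptU, ptL, ptD, flipX, oV, oC, Prod.fst_add, Prod.snd_add, sub_zero]
    cases u.s <;> simp only [cond_true, cond_false, Int.zero_emod, l2, l3, sj, s0, l1, lj, t1, t2,
      t3] <;> omega
  · obtain ⟨q1, q2, q3⟩ := Γ.move_spec hP (oH P) u.exH p h hι (swap_apply_right _ _) rA.1 rA.2
    obtain ⟨v1, v2, v3⟩ := Γ.move_spec hP (oC P) u.rot _ q1 q2 u.rot_A rD.1 rD.2
    rw [fixV _ (Or.inl q1)]
    rw [q3, ← add_vadd] at v3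
    refine ⟨_, v3, ?_⟩
    rw [crd0, h]
    simp only [ptA, ptU, ptL, ptD, flipX, oH, oC, Prod.fst_add, Prod.snd_add, sub_zero]
    cases u.s <;> simp only [cond_true, cond_false, Int.zero_emod, l2, l3, sj, s0, l1, lj, t1, t2,
      t3] <;> omega
  · rw [fixH _ (Or.inr h)]
    obtain ⟨q1, q2, q3⟩ := Γ.move_spec hP (oV P) u.exV p h hι (swap_apply_right _ _) rU.1 rU.2
    obtain ⟨v1, v2, v3⟩ := Γ.move_spec hP (oC P) u.rot _ q1 q2 u.rot_U rA.1 rA.2
    rw [q3, ← add_vadd] at v3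
    refine ⟨_, v3, ?_⟩
    rw [crd0, h]
    simp only [ptA, ptU, ptL, ptD, flipX, oV, oC, Prod.fst_add, Prod.snd_add, sub_zero]
    cases u.s <;> simp only [cond_true, cond_false, Int.zero_emod, l2, l3, sj, s0, l1, lj, t1, t2,
      t3] <;> omega

/-- The unit form. -/
noncomputable def form (w r R : ℤ) (hw : 1 ≤ w) (hwr : w ≤ r) (hr : r ≤ u.j) (hR : u.j < R) :
    Γ.Form m w r R where
  c := (Γ.dom (oC P)).perm u.rot
  a := (Γ.dom (oV P)).perm u.exV
  a' := (Γ.dom (oH P)).perm u.exH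
  b := ((Γ.dom (oC P)).perm u.rot * (Γ.dom (oV P)).perm u.exV * (Γ.dom (oH P)).perm u.exH)⁻¹
  c_mem := Γ.blockPerm_mem _ _
  a_mem := Γ.blockPerm_mem _ _
  a'_mem := Γ.blockPerm_mem _ _
  b_mem := inv_mem (u.rest_mem Γ)
  c_supp p hp := by
    have h := (u.rot_supp Γ p hp).1
    have := u.one_le
    have := u.big
    unfold Four at h
    rcases h with h | h | h | h <;> rw [h] <;>
      simp only [InBox, Near, ptA, ptU, ptL, ptD, flipX] <;>
      cases u.s <;> simp only [cond_true, cond_false] <;> omega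
  a_supp p hp := by
    obtain ⟨rA, rU, rL, rD⟩ := u.range_pts
    obtain ⟨h, -⟩ := u.supp_of_swap Γ _ p hp rU rD
    have := u.one_le
    have := u.big
    rcases h with h | h <;> rw [h] <;> simp only [InV, Near, ptU, ptD, flipX] <;>
      cases u.s <;> simp only [cond_true, cond_false] <;> omega
  a'_supp p hp := by
    obtain ⟨rA, rU, rL, rD⟩ := u.range_pts
    obtain ⟨h, -⟩ := u.supp_of_swap Γ _ p hp rA rL
    have := u.one_le
    have := u.big
    rcases h with h | h <;> rw [h] <;> simp only [InH, Near, ptA, ptL, flipX] <;>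
      cases u.s <;> simp only [cond_true, cond_false] <;> omega

theorem form_closed (w r R : ℤ) (hw : 1 ≤ w) (hwr : w ≤ r) (hr : r ≤ u.j) (hR : u.j < R) :
    (u.form Γ w r R hw hwr hr hR).Closed := mul_inv_cancel _

theorem form_supp (w r R : ℤ) (hw : 1 ≤ w) (hwr : w ≤ r) (hr : r ≤ u.j) (hR : u.j < R) :
    let f := u.form Γ w r R hw hwr hr hR
    Γ.Supp f.c (Four P u.s u.j) ∧ Γ.Supp f.a (Four P u.s u.j) ∧
      Γ.Supp f.a' (Four P u.s u.j) ∧ Γ.Supp f.b (Four P u.s u.j) := by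
  obtain ⟨rA, rU, rL, rD⟩ := u.range_pts
  have h1 : Γ.Supp ((Γ.dom (oC P)).perm u.rot) (Four P u.s u.j) (m := m) := fun p hp =>
    (u.rot_supp Γ p hp).1
  have h2 : Γ.Supp ((Γ.dom (oV P)).perm u.exV) (Four P u.s u.j) (m := m) := fun p hp =>
    (u.supp_of_swap Γ _ p hp rU rD).1.elim (fun e => Or.inr (Or.inl e))
      fun e => Or.inr (Or.inr (Or.inr e))
  have h3 : Γ.Supp ((Γ.dom (oH P)).perm u.exH) (Four P u.s u.j) (m := m) := fun p hp =>
    (u.supp_of_swap Γ _ p hp rA rL).1.elim Or.inl fun e => Or.inr (Or.inr (Or.inl e))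
  exact ⟨h1, h2, h3, ((h1.mul h2 fun _ h => h).mul h3 fun _ h => h).inv⟩

theorem form_count (w r R : ℤ) (hw : 1 ≤ w) (hwr : w ≤ r) (hr : r ≤ u.j) (hR : u.j < R)
    (hPR : 2 * R + 2 ≤ (P : ℤ)) {x : X} (hx : x ∈ (Γ.dom (oC P) (m := m)).base) :
    (u.form Γ w r R hw hwr hr hR).count x = bif u.s then 1 else -1 := by
  classical
  obtain ⟨rA, rU, rL, rD⟩ := u.range_pts
  have := u.one_le
  have := u.big
  have hh : 0 ≤ half P ∧ 2 * half P ≤ (P : ℤ) ∧ (P : ℤ) ≤ 2 * half P + 1 := by unfold half; omega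
  have hpos : Γ.pos ((Γ.dom (oC P)).pt (u.sl (oC P) (ptU P u.s u.j)) x).1 = ptU P u.s u.j := by
    rw [Γ.pos_of_crd (oC P), Γ.crd_pt _ _ hx]
    have hP' : (P : ℤ) ≠ 0 := by omega
    simp [sl, slotAt, Int.toNat_of_nonneg (Int.emod_nonneg _ hP'), Int.emod_eq_of_lt rU.1.1 rU.1.2,
      Int.emod_eq_of_lt rU.2.1 rU.2.2]
  rw [Form.count, zsum, Finset.sum_eq_single (u.sl (oC P) (ptU P u.s u.j))]
  · have hvu : VU P w r R (ptU P u.s u.j) := by
      simp only [VU, InV, InBox, Near, Up, ptU, flipX]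
      cases u.s <;> simp only [cond_true, cond_false] <;> omega
    rw [if_pos (hpos.symm ▸ hvu)]
    obtain ⟨q1, -, -⟩ := Γ.move_spec u.hP (oC P) u.rot
      ((Γ.dom (oC P)).pt (u.sl (oC P) (ptU P u.s u.j)) x) hpos rfl u.rot_U rA.1 rA.2
    show ind (Rt P (Γ.pos ((Γ.dom (oC P)).perm u.rot _).1)) - ind (Rt P _) = _
    rw [q1, hpos]
    simp only [ind, Rt, ptA, ptU, flipX]
    cases u.s <;> simp only [cond_true, cond_false]
    · split_ifs <;> omega
    · split_ifs <;> omega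
  · intro t _ ht
    split_ifs with hvu
    · have hfix : (Γ.dom (oC P)).perm u.rot ((Γ.dom (oC P)).pt t x) = (Γ.dom (oC P)).pt t x := by
        by_contra h
        obtain ⟨h4, hι⟩ := u.rot_supp Γ _ h
        rcases h4 with h4 | h4 | h4 | h4
        · rw [h4] at hvu
          simp only [VU, InV, InBox, Near, Up, ptA, flipX] at hvu
          cases hs : u.s <;> simp only [hs, cond_true, cond_false] at hvu <;> omega
        · refine ht ?_
          have e := Γ.slotOf_pt (oC P) t hx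
          rw [Γ.slotOf_eq u.hP, h4, hι] at e
          exact e.symm
        · rw [h4] at hvu
          simp only [VU, InV, InBox, Near, Up, ptL, flipX] at hvu
          omega
        · rw [h4] at hvu
          simp only [VU, InV, InBox, Near, Up, ptD, flipX] at hvu
          omega
      show ind (Rt P (Γ.pos ((Γ.dom (oC P)).perm u.rot _).1)) - ind (Rt P _) = 0
      rw [hfix, sub_self]
    · rfl
  · simp

end Unit0

/-- Forms with disjoint moved points multiply. -/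
theorem mul_disjoint {w r R : ℤ} (f g : Γ.Form m w r R) (hf1 : f.Closed) (hg1 : g.Closed)
    (K K' : Cell → Prop) (hd : ∀ z, K z → K' z → False)
    (hf : Γ.Supp f.c K ∧ Γ.Supp f.a K ∧ Γ.Supp f.a' K ∧ Γ.Supp f.b K)
    (hg : Γ.Supp g.c K' ∧ Γ.Supp g.a K' ∧ Γ.Supp g.a' K' ∧ Γ.Supp g.b K') :
    ∃ k : Γ.Form m w r R, k.Closed ∧ k.val L = f.val L * g.val L ∧
      (∀ x, k.count x = f.count x + g.count x) ∧
      (Γ.Supp k.c (fun z => K z ∨ K' z) ∧ Γ.Supp k.a (fun z => K z ∨ K' z) ∧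
        Γ.Supp k.a' (fun z => K z ∨ K' z) ∧ Γ.Supp k.b (fun z => K z ∨ K' z)) := by
  obtain ⟨fc, fa, fa', fb⟩ := hf
  obtain ⟨gc, ga, ga', gb⟩ := hg
  refine ⟨{ c := f.c * g.c, a := f.a * g.a, a' := f.a' * g.a', b := f.b * g.b
            c_mem := mul_mem f.c_mem g.c_mem
            a_mem := mul_mem f.a_mem g.a_mem
            a'_mem := mul_mem f.a'_mem g.a'_mem
            b_mem := mul_mem f.b_mem g.b_mem
            c_supp := f.c_supp.mul g.c_supp fun z hz => hz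
            a_supp := f.a_supp.mul g.a_supp fun z hz => hz
            a'_supp := f.a'_supp.mul g.a'_supp fun z hz => hz }, ?_, ?_, ?_,
    ⟨(fc.mono fun _ => Or.inl).mul (gc.mono fun _ => Or.inr) fun _ h => h,
      (fa.mono fun _ => Or.inl).mul (ga.mono fun _ => Or.inr) fun _ h => h,
      (fa'.mono fun _ => Or.inl).mul (ga'.mono fun _ => Or.inr) fun _ h => h,
      (fb.mono fun _ => Or.inl).mul (gb.mono fun _ => Or.inr) fun _ h => h⟩⟩
  · have c1 : Commute g.c (f.a * f.a' * f.b) := Perm.Disjoint.commute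
      (gc.disj ((fa.mul fa' fun _ h => h).mul fb fun _ h => h) fun z a b => hd z b a)
    have c2 : Commute g.a (f.a' * f.b) := Perm.Disjoint.commute
      (ga.disj (fa'.mul fb fun _ h => h) fun z a b => hd z b a)
    have c3 : Commute g.a' f.b := Perm.Disjoint.commute (ga'.disj fb fun z a b => hd z b a)
    show f.c * g.c * (f.a * g.a) * (f.a' * g.a') * (f.b * g.b) = 1
    calc f.c * g.c * (f.a * g.a) * (f.a' * g.a') * (f.b * g.b)
        = f.c * g.c * f.a * g.a * f.a' * (g.a' * f.b) * g.b := by group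
      _ = f.c * g.c * f.a * (g.a * (f.a' * f.b)) * g.a' * g.b := by rw [c3.eq]; group
      _ = f.c * (g.c * (f.a * f.a' * f.b)) * g.a * g.a' * g.b := by rw [c2.eq]; group
      _ = (f.c * f.a * f.a' * f.b) * (g.c * g.a * g.a' * g.b) := by rw [c1.eq]; group
      _ = 1 := by
        rw [show f.c * f.a * f.a' * f.b = 1 from hf1, show g.c * g.a * g.a' * g.b = 1 from hg1,
          one_mul]
  · have d1 := Γ.lft_commute L (oC P) g.c_mem f.a_mem (gc.disj fa fun z a b => hd z b a)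
    have d2 := Γ.lft_commute L (oC P) g.c_mem f.a'_mem (gc.disj fa' fun z a b => hd z b a)
    have d3 := Γ.lft_commute L (oC P) g.c_mem f.b_mem (gc.disj fb fun z a b => hd z b a)
    have d4 := Γ.lft_commute L (oV P) g.a_mem f.a'_mem (ga.disj fa' fun z a b => hd z b a)
    have d5 := Γ.lft_commute L (oV P) g.a_mem f.b_mem (ga.disj fb fun z a b => hd z b a)
    have d6 := Γ.lft_commute L (oH P) g.a'_mem f.b_mem (ga'.disj fb fun z a b => hd z b a)
    simp only [Form.val]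
    rw [Γ.lft_mul L _ f.c_mem g.c_mem, Γ.lft_mul L _ f.a_mem g.a_mem,
      Γ.lft_mul L _ f.a'_mem g.a'_mem, Γ.lft_mul L _ f.b_mem g.b_mem]
    set Fc := Γ.lft L (oC P) f.c
    set Fa := Γ.lft L (oV P) f.a
    set Fa' := Γ.lft L (oH P) f.a'
    set Fb := Γ.lft L 0 f.b
    set Gc := Γ.lft L (oC P) g.c
    set Ga := Γ.lft L (oV P) g.a
    set Ga' := Γ.lft L (oH P) g.a'
    set Gb := Γ.lft L 0 g.b
    calc Fc * Gc * (Fa * Ga) * (Fa' * Ga') * (Fb * Gb)
        = Fc * Gc * Fa * Ga * Fa' * (Ga' * Fb) * Gb := by group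
      _ = Fc * Gc * Fa * (Ga * (Fa' * Fb)) * Ga' * Gb := by rw [d6.eq]; group
      _ = Fc * (Gc * (Fa * Fa' * Fb)) * Ga * Ga' * Gb := by rw [(d4.mul_right d5).eq]; group
      _ = Fc * Fa * Fa' * Fb * (Gc * Ga * Ga' * Gb) := by
        rw [((d1.mul_right d2).mul_right d3).eq]; group
  · intro x
    classical
    simp only [Form.count, zsum, ← Finset.sum_add_distrib]
    refine Finset.sum_congr rfl fun t _ => ?_
    generalize (Γ.dom (oC P)).pt t x = p
    split_ifs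
    · show ind (Rt P (Γ.pos (f.c (g.c p)).1)) - _ = _
      by_cases h : g.c p = p
      · simp only [Form.dV, h]; abel
      · have e1 : f.c p = p := by
          by_contra h'; exact hd _ (fc p h') (gc p h)
        have e2 : f.c (g.c p) = g.c p := by
          by_contra h'; exact hd _ (fc _ h') (gc _ fun e => h (g.c.injective e))
        simp only [Form.dV, e1, e2]; abel
    · rfl

end Vale.Agent.P196.Flux.Grid
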