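import Vale.Agent.P196.Flux.Main
import Vale.Agent.P196.Simple.Sft

/-!
# P196, C7: the flux theorem over the macro-tile shift
-/

namespace Vale.Agent.P196.Sft.MacroSystem

variable (S : MacroSystem)

/-- The positions in the tiles of level `k` form a grid. -/
noncomputable def fluxGrid (k : ℕ) : Flux.Grid (S.Conf 0) (S.P k) where
  pos := S.pos k
  loc := (S.isLocallyConstant_pos k).1
  mem := S.pos_mem k
  pos_vadd v x := S.pos_act k v x

theorem hasGrids : Flux.HasGrids (S.Conf 0) := fun N => ⟨S.P N, S.le_P N, ⟨S.fluxGrid N⟩⟩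

theorem minimal : Flux.Minimal (S.Conf 0) := S.exists_vadd_mem

/-- The kernel of a lift over the shift is central and finitely generated. -/
theorem ker_central_fg {m : ℕ} {G : Type*} [Group G] (L : Flux.Lift (S.Conf 0) m G) (hm : 0 < m) :
    L.toPerm.ker ≤ Subgroup.center G ∧ L.toPerm.ker.FG :=
  Flux.ker_central_fg L S.hasGrids S.minimal hm

end Vale.Agent.P196.Sft.MacroSystem
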