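import Vale.Agent.P196.Flux.Word

/-!
# P196, C7: sides of the grid lines in a closed form
-/

namespace Vale.Agent.P196.Flux.Grid

open Equiv Simple

set_option linter.unusedSectionVars false

variable {X : Type} [TopologicalSpace X] [AddAction Cell X] [ContinuousConstVAdd Cell X]
  [CompactSpace X] [T2Space X] {m : ℕ} {G : Type*} [Group G] (L : Lift X m G) {P : ℕ}
  (Γ : Grid X P)

/-- Right of the nearest vertical line. -/
def Rt (P : ℕ) (z : Cell) : Prop := z.1 < half P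

/-- Above the nearest horizontal line. -/
def Up (P : ℕ) (z : Cell) : Prop := z.2 < half P

/-- The perms of a form multiply to one. -/
def Form.Closed {w r R : ℤ} {Γ : Grid X P} (f : Γ.Form m w r R) : Prop :=
  f.c * f.a * f.a' * f.b = 1

theorem Form.toPerm_val {w r R : ℤ} {Γ : Grid X P} (f : Γ.Form m w r R) :
    L.toPerm (f.val L) = f.c * f.a * f.a' * f.b := by
  rw [Form.val, map_mul, map_mul, map_mul, Γ.toPerm_lft L _ f.c_mem, Γ.toPerm_lft L _ f.a_mem,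
    Γ.toPerm_lft L _ f.a'_mem, Γ.toPerm_lft L _ f.b_mem]

theorem disp_of_mem {o : Cell} {g : Perm (X × Fin m)} (hg : g ∈ Γ.Blk o) (p : X × Fin m) :
    (g p).1 = (Γ.crd o (g p).1 - Γ.crd o p.1) +ᵥ p.1 := by
  rw [sub_eq_add_neg, add_vadd]
  show (g p).1 = Γ.crd o (g p).1 +ᵥ Γ.anc o p.1
  rw [← hg.2 p, Γ.vadd_anc]

/-- Two ways to move a point into one tile. -/
theorem anc_zero_eq (hf : Free X) (x : X) (u v : Cell) (h : Γ.anc 0 (u +ᵥ x) = Γ.anc 0 (v +ᵥ x)) :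
    ((Γ.pos x).1 + u.1) % (P : ℤ) - u.1 = ((Γ.pos x).1 + v.1) % (P : ℤ) - v.1 ∧
      ((Γ.pos x).2 + u.2) % (P : ℤ) - u.2 = ((Γ.pos x).2 + v.2) % (P : ℤ) - v.2 := by
  have hm := Γ.mem x
  have c0 : ∀ w : Cell, Γ.crd 0 (w +ᵥ x) =
      (((Γ.pos x).1 + w.1) % (P : ℤ), ((Γ.pos x).2 + w.2) % (P : ℤ)) := fun w => by
    rw [Γ.crd_vadd]
    simp [crd, Int.emod_eq_of_lt hm.1.1 hm.1.2, Int.emod_eq_of_lt hm.2.1 hm.2.2]
  have e : (-Γ.crd 0 (u +ᵥ x) + u) +ᵥ x = (-Γ.crd 0 (v +ᵥ x) + v) +ᵥ x := by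
    rw [add_vadd, add_vadd]; exact h
  have := hf.vadd_inj e
  rw [c0, c0, Prod.ext_iff] at this
  simp only [Prod.fst_add, Prod.snd_add, Prod.fst_neg, Prod.snd_neg] at this
  omega

theorem emod_cases {z d P : ℤ} (hz : 0 ≤ z) (hz' : z < P) (hd : -P ≤ d) (hd' : d ≤ P) :
    ((z + d) % P = z + d ∧ 0 ≤ z + d ∧ z + d < P) ∨
      ((z + d) % P = z + d + P ∧ z + d < 0) ∨ ((z + d) % P = z + d - P ∧ P ≤ z + d) := by
  rcases lt_or_ge (z + d) 0 with h | h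
  · exact Or.inr (Or.inl ⟨by rw [← Int.add_emod_right, Int.emod_eq_of_lt (by omega) (by omega)], h⟩)
  · rcases lt_or_ge (z + d) P with h' | h'
    · exact Or.inl ⟨Int.emod_eq_of_lt h h', h, h'⟩
    · exact Or.inr (Or.inr ⟨by rw [← Int.sub_emod_right,
        Int.emod_eq_of_lt (by omega) (by omega)], h'⟩)

theorem sub_half_emod {z : ℤ} (hz : 0 ≤ z) (hz' : z < (P : ℤ)) :
    ((z - half P) % (P : ℤ) = z - half P + P ∧ z < half P) ∨
      ((z - half P) % (P : ℤ) = z - half P ∧ half P ≤ z) := by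
  rcases lt_or_ge z (half P) with h | h
  · refine Or.inl ⟨?_, h⟩
    rw [← Int.add_emod_right, Int.emod_eq_of_lt (by unfold half at *; omega) (by omega)]
  · exact Or.inr ⟨Int.emod_eq_of_lt (by omega) (by unfold half at *; omega), h⟩

variable {Γ}

theorem c_eq {w r R : ℤ} {f : Γ.Form m w r R} (hc : f.Closed) (p : X × Fin m) :
    f.c p = f.b⁻¹ (f.a'⁻¹ (f.a⁻¹ p)) := by
  have h : f.c = f.b⁻¹ * f.a'⁻¹ * f.a⁻¹ := by
    have h' : f.c * f.a * f.a' * f.b = 1 := hc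
    rw [← mul_inv_rev, ← mul_inv_rev, ← mul_eq_one_iff_eq_inv]
    simpa [mul_assoc] using h'
  rw [h]; rfl

theorem anc_V {w r R : ℤ} (hwr : w ≤ r) {f : Γ.Form m w r R} (hc : f.Closed) (p : X × Fin m)
    (hp : InV P w r (Γ.pos p.1)) : Γ.anc 0 (f.c p).1 = Γ.anc 0 (f.a⁻¹ p).1 := by
  have h1 : f.a' (f.a⁻¹ p) = f.a⁻¹ p := by
    by_contra h
    have e1 := f.a'_supp _ h
    by_cases hfix : f.a⁻¹ p = p
    · rw [hfix] at e1
      unfold InV InH Near at *; omega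
    · have e2 := f.a_supp.inv (f.a⁻¹ p) fun e => hfix (f.a⁻¹.injective e)
      unfold InV InH Near at *; omega
  have h2 : f.a'⁻¹ (f.a⁻¹ p) = f.a⁻¹ p := by
    rw [Perm.inv_eq_iff_eq]; exact h1.symm
  rw [c_eq hc, h2]
  exact (inv_mem f.b_mem).2 _

theorem anc_H {w r R : ℤ} (hwr : w ≤ r) {f : Γ.Form m w r R} (hc : f.Closed) (p : X × Fin m)
    (hp : InH P w r (Γ.pos p.1)) : Γ.anc 0 (f.c p).1 = Γ.anc 0 (f.a'⁻¹ p).1 := by
  have h1 : f.a⁻¹ p = p := by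
    by_contra h
    have := f.a_supp.inv p h
    unfold InV InH Near at *; omega
  rw [c_eq hc, h1]
  exact (inv_mem f.b_mem).2 _

theorem anc_out {w r R : ℤ} {f : Γ.Form m w r R} (hc : f.Closed) (p : X × Fin m)
    (h1 : ¬ InV P w r (Γ.pos p.1)) (h2 : ¬ InH P w r (Γ.pos p.1)) :
    Γ.anc 0 (f.c p).1 = Γ.anc 0 p.1 := by
  have e1 : f.a⁻¹ p = p := by
    by_contra h; exact h1 (f.a_supp.inv p h)
  have e2 : f.a'⁻¹ p = p := by
    by_contra h; exact h2 (f.a'_supp.inv p h)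
  rw [c_eq hc, e1, e2]
  exact (inv_mem f.b_mem).2 _

theorem side_V (hf : Free X) {w r R : ℤ} (hw : w ≤ r) {f : Γ.Form m w r R} (hc : f.Closed)
    (p : X × Fin m) (hp : InV P w r (Γ.pos p.1)) :
    (Up P (Γ.pos (f.c p).1) ↔ Up P (Γ.pos p.1)) ∧
      (Rt P (Γ.pos (f.c p).1) ↔ Rt P (Γ.pos (f.a⁻¹ p).1)) := by
  have h := anc_V hw hc p hp
  have hu := disp_of_mem Γ f.c_mem p
  have hv := disp_of_mem Γ (inv_mem f.a_mem) p
  obtain ⟨ru1, ru2⟩ := range_of_mem hf f.c_mem hu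
  obtain ⟨rv1, rv2⟩ := range_of_mem hf (inv_mem f.a_mem) hv
  generalize Γ.crd (oC P) (f.c p).1 - Γ.crd (oC P) p.1 = u at hu ru1 ru2
  generalize Γ.crd (oV P) (f.a⁻¹ p).1 - Γ.crd (oV P) p.1 = v at hv rv1 rv2
  rw [hu, hv] at h ⊢
  obtain ⟨e1, e2⟩ := Γ.anc_zero_eq hf _ _ _ h
  have hm := Γ.mem p.1
  simp only [crd, oC, oV, sub_zero] at ru1 ru2 rv1 rv2
  rw [Int.emod_eq_of_lt hm.2.1 hm.2.2] at rv2
  rw [Int.emod_eq_of_lt rv2.1 rv2.2] at e2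
  simp only [Up, Rt, Γ.pos_vadd]
  have hh : 0 ≤ half P ∧ 2 * half P ≤ (P : ℤ) := by unfold half; omega
  rcases sub_half_emod (P := P) hm.1.1 hm.1.2 with hC | hC <;>
  rcases sub_half_emod (P := P) hm.2.1 hm.2.2 with hE | hE <;>
  rcases emod_cases (d := u.1) hm.1.1 hm.1.2 (by omega) (by omega) with hA | hA | hA <;>
  rcases emod_cases (d := v.1) hm.1.1 hm.1.2 (by omega) (by omega) with hB | hB | hB <;>
  rcases emod_cases (d := u.2) hm.2.1 hm.2.2 (by omega) (by omega) with hD | hD | hD <;>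
  omega

theorem side_H (hf : Free X) {w r R : ℤ} (hw : w ≤ r) {f : Γ.Form m w r R} (hc : f.Closed)
    (p : X × Fin m) (hp : InH P w r (Γ.pos p.1)) :
    (Rt P (Γ.pos (f.c p).1) ↔ Rt P (Γ.pos p.1)) ∧
      (Up P (Γ.pos (f.c p).1) ↔ Up P (Γ.pos (f.a'⁻¹ p).1)) := by
  have h := anc_H hw hc p hp
  have hu := disp_of_mem Γ f.c_mem p
  have hv := disp_of_mem Γ (inv_mem f.a'_mem) p
  obtain ⟨ru1, ru2⟩ := range_of_mem hf f.c_mem hu
  obtain ⟨rv1, rv2⟩ := range_of_mem hf (inv_mem f.a'_mem) hv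
  generalize Γ.crd (oC P) (f.c p).1 - Γ.crd (oC P) p.1 = u at hu ru1 ru2
  generalize Γ.crd (oH P) (f.a'⁻¹ p).1 - Γ.crd (oH P) p.1 = v at hv rv1 rv2
  rw [hu, hv] at h ⊢
  obtain ⟨e1, e2⟩ := Γ.anc_zero_eq hf _ _ _ h
  have hm := Γ.mem p.1
  simp only [crd, oC, oH, sub_zero] at ru1 ru2 rv1 rv2
  rw [Int.emod_eq_of_lt hm.1.1 hm.1.2] at rv1
  rw [Int.emod_eq_of_lt rv1.1 rv1.2] at e1
  simp only [Up, Rt, Γ.pos_vadd]
  have hh : 0 ≤ half P ∧ 2 * half P ≤ (P : ℤ) := by unfold half; omega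
  rcases sub_half_emod (P := P) hm.1.1 hm.1.2 with hC | hC <;>
  rcases sub_half_emod (P := P) hm.2.1 hm.2.2 with hE | hE <;>
  rcases emod_cases (d := u.2) hm.2.1 hm.2.2 (by omega) (by omega) with hA | hA | hA <;>
  rcases emod_cases (d := v.2) hm.2.1 hm.2.2 (by omega) (by omega) with hB | hB | hB <;>
  rcases emod_cases (d := u.1) hm.1.1 hm.1.2 (by omega) (by omega) with hD | hD | hD <;>
  omega

theorem side_out (hf : Free X) {w r R : ℤ} {f : Γ.Form m w r R} (hc : f.Closed)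
    (p : X × Fin m) (h1 : ¬ InV P w r (Γ.pos p.1)) (h2 : ¬ InH P w r (Γ.pos p.1)) :
    (Rt P (Γ.pos (f.c p).1) ↔ Rt P (Γ.pos p.1)) ∧
      (Up P (Γ.pos (f.c p).1) ↔ Up P (Γ.pos p.1)) := by
  have h := anc_out hc p h1 h2
  have hu := disp_of_mem Γ f.c_mem p
  obtain ⟨ru1, ru2⟩ := range_of_mem hf f.c_mem hu
  generalize Γ.crd (oC P) (f.c p).1 - Γ.crd (oC P) p.1 = u at hu ru1 ru2
  have h0 : Γ.anc 0 (u +ᵥ p.1) = Γ.anc 0 ((0 : Cell) +ᵥ p.1) := by rw [← hu, h, zero_vadd]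
  obtain ⟨e1, e2⟩ := Γ.anc_zero_eq hf _ _ _ h0
  have hm := Γ.mem p.1
  simp only [crd, oC] at ru1 ru2
  simp only [Prod.fst_zero, Prod.snd_zero, add_zero, sub_zero,
    Int.emod_eq_of_lt hm.1.1 hm.1.2, Int.emod_eq_of_lt hm.2.1 hm.2.2] at e1 e2
  simp only [Up, Rt, hu, Γ.pos_vadd]
  have hh : 0 ≤ half P ∧ 2 * half P ≤ (P : ℤ) := by unfold half; omega
  rcases sub_half_emod (P := P) hm.1.1 hm.1.2 with hC | hC <;>
  rcases sub_half_emod (P := P) hm.2.1 hm.2.2 with hE | hE <;>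
  omega

/-- A member of the corner group keeping both sides is tile preserving. -/
theorem mem_zero_of_sides (hf : Free X) {g : Perm (X × Fin m)} (hg : g ∈ Γ.Blk (oC P))
    (h : ∀ p, (Rt P (Γ.pos (g p).1) ↔ Rt P (Γ.pos p.1)) ∧
      (Up P (Γ.pos (g p).1) ↔ Up P (Γ.pos p.1))) : g ∈ Γ.Blk 0 := by
  refine mem_blk hg.1 fun p _ => ?_
  have hu := disp_of_mem Γ hg p
  obtain ⟨ru1, ru2⟩ := range_of_mem hf hg hu
  obtain ⟨h1, h2⟩ := h p
  generalize Γ.crd (oC P) (g p).1 - Γ.crd (oC P) p.1 = u at hu ru1 ru2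
  refine ⟨u, hu, ?_⟩
  have hm := Γ.mem p.1
  have hh : 0 ≤ half P ∧ 2 * half P ≤ (P : ℤ) := by unfold half; omega
  simp only [crd, oC] at ru1 ru2
  simp only [Up, Rt, hu, Γ.pos_vadd] at h1 h2
  simp only [crd, Prod.fst_zero, Prod.snd_zero, sub_zero, Int.emod_eq_of_lt hm.1.1 hm.1.2,
    Int.emod_eq_of_lt hm.2.1 hm.2.2]
  rcases sub_half_emod (P := P) hm.1.1 hm.1.2 with hC | hC <;>
  rcases sub_half_emod (P := P) hm.2.1 hm.2.2 with hE | hE <;>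
  rcases emod_cases (d := u.1) hm.1.1 hm.1.2 (by omega) (by omega) with hA | hA | hA <;>
  rcases emod_cases (d := u.2) hm.2.1 hm.2.2 (by omega) (by omega) with hD | hD | hD <;>
  omega

end Vale.Agent.P196.Flux.Grid
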