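import Vale.Agent.P196.Flux.Normal

/-!
# P196, C7: every element has a normal form at every large side; the kernel is central
-/

namespace Vale.Agent.P196.Flux.Grid

open Equiv Simple

set_option linter.unusedSectionVars false

variable {X : Type} [TopologicalSpace X] [AddAction Cell X] [ContinuousConstVAdd Cell X]
  [CompactSpace X] [T2Space X] {m : ℕ} {G : Type*} [Group G] (L : Lift X m G)

/-- Displacement bound of a chart transposition. -/
theorem exists_bound (c : Chart Cell X m (Fin 2)) : ∃ D : ℕ, ∀ a b,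
    |((c.slot b).1 - (c.slot a).1).1| ≤ (D : ℤ) ∧ |((c.slot b).1 - (c.slot a).1).2| ≤ (D : ℤ) := by
  refine ⟨Finset.univ.sup fun q : Fin 2 × Fin 2 => max ((c.slot q.2).1 - (c.slot q.1).1).1.natAbs
    ((c.slot q.2).1 - (c.slot q.1).1).2.natAbs, fun a b => ?_⟩
  have h := Finset.le_sup (f := fun q : Fin 2 × Fin 2 =>
    max ((c.slot q.2).1 - (c.slot q.1).1).1.natAbs ((c.slot q.2).1 - (c.slot q.1).1).2.natAbs)
    (Finset.mem_univ (a, b))
  simp only [max_le_iff] at h
  rw [abs_le, abs_le]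
  omega

theorem lift_swap_inv (c : Chart Cell X m (Fin 2)) :
    (L.lift c (swap 0 1))⁻¹ = L.lift c (swap 0 1) := by
  rw [← map_inv, Equiv.swap_inv]

/-- A property of all elements that holds for transpositions and products holds everywhere. -/
theorem generated_induction {Q : G → Prop} (h1 : Q 1)
    (hsw : ∀ c : Chart Cell X m (Fin 2), Q (L.lift c (swap 0 1))) (hmul : ∀ a b, Q a → Q b → Q (a * b)) (g : G) : Q g := by
  have h : g ∈ Subgroup.closure {g | ∃ c : Chart Cell X m (Fin 2), g = L.lift c (swap 0 1)} := by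
    rw [L.generated]; exact Subgroup.mem_top g
  suffices Q g ∧ Q g⁻¹ from this.1
  induction h using Subgroup.closure_induction with
  | mem x hx => obtain ⟨c, rfl⟩ := hx; rw [lift_swap_inv]; exact ⟨hsw c, hsw c⟩
  | one => rw [inv_one]; exact ⟨h1, h1⟩
  | mul a b _ _ ha hb => rw [mul_inv_rev]; exact ⟨hmul _ _ ha.1 hb.1, hmul _ _ hb.2 ha.2⟩
  | inv a _ ha => rw [inv_inv]; exact ⟨ha.2, ha.1⟩

theorem exists_grow (hf : Free X) (g : G) : ∃ B : ℕ, ∀ (P : ℕ) (Γ : Grid X P) (w r R : ℤ)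
    (f : Γ.Form m w r R), (B : ℤ) ≤ w → w + B ≤ R → r ≤ R → 2 * (R + 2 * B) + 2 ≤ (P : ℤ) →
    ∃ f' : Γ.Form m (w + B) r (R + B), f'.val L = g * f.val L := by
  induction g using generated_induction L with
  | h1 => exact ⟨0, fun P Γ w r R f _ _ _ _ =>
      ⟨f.widen (by simp) (by simp), by rw [Form.val_widen, one_mul]⟩⟩
  | hsw c =>
    obtain ⟨D, hD⟩ := exists_bound c
    exact ⟨D, fun P Γ w r R f h1 h2 h3 h4 => Γ.step L hf c D hD f h1 h2 h3 h4⟩
  | hmul a b ha hb =>
    obtain ⟨B1, k1⟩ := ha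
    obtain ⟨B2, k2⟩ := hb
    refine ⟨B1 + B2, fun P Γ w r R f h1 h2 h3 h4 => ?_⟩
    push_cast at h1 h2 h4
    obtain ⟨f1, e1⟩ := k2 P Γ w r R f (by omega) (by omega) h3 (by omega)
    obtain ⟨f2, e2⟩ := k1 P Γ _ r _ f1 (by omega) (by omega) (by omega) (by omega)
    exact ⟨f2.widen (by push_cast; omega) (by push_cast; omega),
      by rw [Form.val_widen, e2, e1, mul_assoc]⟩

/-- Every element has a form on every large grid. -/
theorem exists_form (hf : Free X) (g : G) : ∃ B₀ : ℕ, ∀ B : ℕ, B₀ ≤ B → ∀ (P : ℕ) (Γ : Grid X P),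
    20 * B + 2 ≤ P → ∃ f : Γ.Form m (2 * B) (3 * B) (4 * B), f.val L = g := by
  obtain ⟨B₀, h⟩ := exists_grow L hf g
  refine ⟨B₀, fun B hB P Γ hP => ?_⟩
  obtain ⟨f, e⟩ := h P Γ B (3 * B) (3 * B) (oneForm _ _ _) (by omega) (by omega) le_rfl (by omega)
  exact ⟨f.widen (by omega) (by omega), by rw [Form.val_widen, e, val_oneForm, mul_one]⟩

/-- Near the centre of the squares of offset `o`. -/
def Cen {P : ℕ} (o : Cell) (k : ℤ) (z : Cell) : Prop :=
  (half P - k ≤ (z.1 - o.1) % (P : ℤ) ∧ (z.1 - o.1) % (P : ℤ) ≤ half P + k) ∧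
    (half P - k ≤ (z.2 - o.2) % (P : ℤ) ∧ (z.2 - o.2) % (P : ℤ) ≤ half P + k)

theorem conj_step (hf : Free X) (c : Chart Cell X m (Fin 2)) (D : ℤ)
    (hD : ∀ a b, |((c.slot b).1 - (c.slot a).1).1| ≤ D ∧ |((c.slot b).1 - (c.slot a).1).2| ≤ D)
    {P : ℕ} (Γ : Grid X P) (o : Cell) (k : ℤ) (hk : 0 ≤ k) (hP : 2 * (k + 2 * D) + 2 ≤ (P : ℤ))
    (e : Perm (X × Fin m)) (he : e ∈ Γ.Blk o) (hs : Γ.Supp e (Cen (P := P) o k)) :
    L.toPerm (L.lift c (swap 0 1)) * e * (L.toPerm (L.lift c (swap 0 1)))⁻¹ ∈ Γ.Blk o ∧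
      Γ.Supp (L.toPerm (L.lift c (swap 0 1)) * e * (L.toPerm (L.lift c (swap 0 1)))⁻¹)
        (Cen (P := P) o (k + D)) ∧
      L.lift c (swap 0 1) * Γ.lft L o e * (L.lift c (swap 0 1))⁻¹ =
        Γ.lft L o (L.toPerm (L.lift c (swap 0 1)) * e * (L.toPerm (L.lift c (swap 0 1)))⁻¹) := by
  have hD0 : 0 ≤ D := le_trans (abs_nonneg _) (hD 0 0).1
  let Q : Cell → Cell → Prop := fun z z' => Cen (P := P) o k z ∨ Cen (P := P) o k z'
  have k1 := Γ.isClopen_pairSet c Q
  let ci := c.restrict (c.base ∩ Γ.pairSet c Q) (c.clopen.inter k1) Set.inter_subset_left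
  let co := c.restrict (c.base ∩ (Γ.pairSet c Q)ᶜ) (c.clopen.inter k1.compl) Set.inter_subset_left
  obtain ⟨m1, s1, e1⟩ := Γ.piece_spec L ci hf o (Cen (P := P) o (k + D)) fun x hx a b hab => by
    show Γ.Stays _ _ (c.pt a x).1 ((c.slot b).1 - (c.slot a).1)
    have hd := hD a b
    rw [abs_le, abs_le] at hd
    have hpb : (c.pt b x).1 = ((c.slot b).1 - (c.slot a).1) +ᵥ (c.pt a x).1 := by
      simp only [Chart.pt, ← add_vadd, sub_add_cancel]
    have hQ : Cen (P := P) o k (Γ.pos (c.pt a x).1) ∨ Cen (P := P) o k (Γ.pos (c.pt b x).1) := by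
      have h : Q _ _ := hx.2
      fin_cases a <;> fin_cases b <;> first | exact absurd rfl hab | exact h | exact h.symm
    have hc : Cen (P := P) o (k + D) (Γ.pos (c.pt a x).1) := by
      rcases hQ with h | h
      · unfold Cen at *; omega
      · have hb : (half P - k ≤ (Γ.crd o (c.pt b x).1).1 ∧ (Γ.crd o (c.pt b x).1).1 ≤ half P + k) ∧
          (half P - k ≤ (Γ.crd o (c.pt b x).1).2 ∧ (Γ.crd o (c.pt b x).1).2 ≤ half P + k) := h
        have hpa : (c.pt a x).1 = ((c.slot a).1 - (c.slot b).1) +ᵥ (c.pt b x).1 := by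
          simp only [Chart.pt, ← add_vadd, sub_add_cancel]
        have hd' := hD b a
        rw [abs_le, abs_le] at hd'
        show (half P - (k + D) ≤ (Γ.crd o (c.pt a x).1).1 ∧
            (Γ.crd o (c.pt a x).1).1 ≤ half P + (k + D)) ∧
          (half P - (k + D) ≤ (Γ.crd o (c.pt a x).1).2 ∧
            (Γ.crd o (c.pt a x).1).2 ≤ half P + (k + D))
        rw [hpa, Γ.crd_vadd_of_mem o _ _ (by unfold half at *; omega) (by unfold half at *; omega)]
        simp only [Prod.fst_add, Prod.snd_add]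
        omega
    have hc' : (half P - (k + D) ≤ (Γ.crd o (c.pt a x).1).1 ∧
            (Γ.crd o (c.pt a x).1).1 ≤ half P + (k + D)) ∧
          (half P - (k + D) ≤ (Γ.crd o (c.pt a x).1).2 ∧
            (Γ.crd o (c.pt a x).1).2 ≤ half P + (k + D)) := hc
    exact ⟨hc, by unfold half at *; omega, by unfold half at *; omega⟩
  have hout : Commute (L.lift co (swap 0 1)) (Γ.lft L o e) :=
    Γ.lift_commute_lft L co _ he fun p => by
      by_contra hp
      push Not at hp
      obtain ⟨x, hx, a, b, hab, rfl, -⟩ := moved_piece co p hp.2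
      have h := hs _ hp.1
      refine hx.2 ?_
      show Q _ _
      fin_cases a <;> fin_cases b <;> first | exact absurd rfl hab | exact Or.inl h | exact Or.inr h
  have key : L.lift c (swap 0 1) * Γ.lft L o e * (L.lift c (swap 0 1))⁻¹ =
      Γ.lft L o (ci.perm (swap 0 1) * e * (ci.perm (swap 0 1))⁻¹) := by
    rw [Γ.lft_mul L o (mul_mem m1 he) (inv_mem m1), Γ.lft_mul L o m1 he, Γ.lft_inv L o m1, ← e1,
      L.lift_split c _ k1]
    show L.lift ci (swap 0 1) * L.lift co (swap 0 1) * Γ.lft L o e *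
      (L.lift ci (swap 0 1) * L.lift co (swap 0 1))⁻¹ = _
    rw [mul_assoc (L.lift ci _) (L.lift co _) _, hout.eq]
    group
  have hmem : ci.perm (swap 0 1) * e * (ci.perm (swap 0 1))⁻¹ ∈ Γ.Blk o :=
    mul_mem (mul_mem m1 he) (inv_mem m1)
  have hperm : L.toPerm (L.lift c (swap 0 1)) * e * (L.toPerm (L.lift c (swap 0 1)))⁻¹ =
      ci.perm (swap 0 1) * e * (ci.perm (swap 0 1))⁻¹ := by
    have h := congrArg L.toPerm key
    rwa [map_mul, map_mul, map_inv, Γ.toPerm_lft L o he, Γ.toPerm_lft L o hmem] at h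
  rw [hperm]
  refine ⟨hmem, ?_, key⟩
  exact (s1.mul (hs.mono fun z hz => (by unfold Cen at *; omega : Cen (P := P) o (k + D) z))
    fun z hz => hz).mul s1.inv fun z hz => hz

theorem exists_conj (hf : Free X) (g : G) : ∃ B : ℕ, ∀ (P : ℕ) (Γ : Grid X P) (o : Cell) (k : ℤ)
    (e : Perm (X × Fin m)), 0 ≤ k → 2 * (k + 2 * B) + 2 ≤ (P : ℤ) → e ∈ Γ.Blk o →
    Γ.Supp e (Cen (P := P) o k) →
    L.toPerm g * e * (L.toPerm g)⁻¹ ∈ Γ.Blk o ∧
      Γ.Supp (L.toPerm g * e * (L.toPerm g)⁻¹) (Cen (P := P) o (k + B)) ∧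
      g * Γ.lft L o e * g⁻¹ = Γ.lft L o (L.toPerm g * e * (L.toPerm g)⁻¹) := by
  induction g using generated_induction L with
  | h1 => exact ⟨0, fun P Γ o k e _ _ he hs => by simpa using ⟨he, hs⟩⟩
  | hsw c =>
    obtain ⟨D, hD⟩ := exists_bound c
    exact ⟨D, fun P Γ o k e hk hP he hs => conj_step L hf c D hD Γ o k hk hP e he hs⟩
  | hmul a b ha hb =>
    obtain ⟨B1, k1⟩ := ha
    obtain ⟨B2, k2⟩ := hb
    refine ⟨B1 + B2, fun P Γ o k e hk hP he hs => ?_⟩
    push_cast at hP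
    obtain ⟨h1, h2, h3⟩ := k2 P Γ o k e hk (by omega) he hs
    obtain ⟨h4, h5, h6⟩ := k1 P Γ o (k + B2) _ (by omega) (by omega) h1 h2
    have e' : L.toPerm (a * b) * e * (L.toPerm (a * b))⁻¹ =
        L.toPerm a * (L.toPerm b * e * (L.toPerm b)⁻¹) * (L.toPerm a)⁻¹ := by
      rw [map_mul]; group
    rw [e']
    refine ⟨h4, h5.mono fun z hz => by unfold Cen at *; push_cast; omega, ?_⟩
    rw [← h6, ← h3]
    group

/-- The kernel is central. -/
theorem ker_le_center (hf : Free X) (hgrid : HasGrids X) :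
    L.toPerm.ker ≤ Subgroup.center G := by
  intro z hz
  rw [Subgroup.mem_center_iff]
  intro g
  induction g using generated_induction L with
  | h1 => simp
  | hmul a b ha hb => rw [mul_assoc, hb, ← mul_assoc, ha, mul_assoc]
  | hsw c =>
    obtain ⟨D, hD⟩ := exists_bound c
    obtain ⟨B, hB⟩ := exists_conj L hf z
    obtain ⟨P, hP, ⟨Γ⟩⟩ := hgrid (2 * (D + D + 2 * B) + 2)
    let φ : LocallyConstant X (Fin P × Fin P) :=
      ⟨fun x => (⟨(Γ.pos ((c.slot 0).1 +ᵥ x)).1.toNat, by have := Γ.mem ((c.slot 0).1 +ᵥ x); omega⟩,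
        ⟨(Γ.pos ((c.slot 0).1 +ᵥ x)).2.toNat, by have := Γ.mem ((c.slot 0).1 +ᵥ x); omega⟩), by
        refine (IsLocallyConstant.iff_eventually_eq _).2 fun x => ?_
        filter_upwards [(IsLocallyConstant.iff_eventually_eq _).1
          (Γ.loc.comp_continuous (continuous_const_vadd (c.slot 0).1)) x] with y hy
        simp only [Function.comp] at hy
        simp only [hy]⟩
    have e : part L c φ (fun _ => swap 0 1) = L.lift c (swap 0 1) := by
      have := part_indicator L c φ Finset.univ (swap 0 1) c.base c.clopen subset_rfl (by simp)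
      rw [show (fun k : Fin P × Fin P => if k ∈ Finset.univ then swap 0 1 else 1) =
        fun _ => (swap 0 1 : Perm (Fin 2)) by simp] at this
      exact this
    rw [← e]
    refine (part_commute L c φ _ z fun q => ?_).symm.eq
    let o : Cell := ((q.1.val : ℤ) - half P, (q.2.val : ℤ) - half P)
    obtain ⟨m1, s1, e1⟩ := Γ.piece_spec L (fibre c φ q) hf o (Cen (P := P) o D) fun x hx a b hab => by
      show Γ.Stays _ _ (c.pt a x).1 ((c.slot b).1 - (c.slot a).1)
      have h0 : φ x = q := hx.2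
      have hm := Γ.mem ((c.slot 0).1 +ᵥ x)
      have hc : Γ.crd o (c.pt 0 x).1 = (half P, half P) := by
        show ((_ - _) % _, (_ - _) % _) = _
        have q1 : (q.1.val : ℤ) = (Γ.pos ((c.slot 0).1 +ᵥ x)).1 :=
          (congrArg (fun k : Fin P × Fin P => (k.1.val : ℤ)) h0).symm.trans
            (Int.toNat_of_nonneg hm.1.1)
        have q2 : (q.2.val : ℤ) = (Γ.pos ((c.slot 0).1 +ᵥ x)).2 :=
          (congrArg (fun k : Fin P × Fin P => (k.2.val : ℤ)) h0).symm.trans
            (Int.toNat_of_nonneg hm.2.1)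
        simp only [o, Chart.pt]
        rw [q1, q2, sub_sub_cancel, sub_sub_cancel,
          Int.emod_eq_of_lt (by unfold half; omega) (by unfold half; omega)]
      have hpa : (c.pt a x).1 = ((c.slot a).1 - (c.slot 0).1) +ᵥ (c.pt 0 x).1 := by
        simp only [Chart.pt, ← add_vadd, sub_add_cancel]
      have hd := hD 0 a
      have hd' := hD a b
      rw [abs_le, abs_le] at hd hd'
      have hca : Γ.crd o (c.pt a x).1 = (half P, half P) + ((c.slot a).1 - (c.slot 0).1) := by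
        rw [hpa, Γ.crd_vadd_of_mem o _ _ (by rw [hc]; unfold half; omega)
          (by rw [hc]; unfold half; omega), hc]
      refine ⟨?_, ?_, ?_⟩
      · show (_ ≤ (Γ.crd o (c.pt a x).1).1 ∧ (Γ.crd o (c.pt a x).1).1 ≤ _) ∧
          (_ ≤ (Γ.crd o (c.pt a x).1).2 ∧ (Γ.crd o (c.pt a x).1).2 ≤ _)
        rw [hca]; simp only [Prod.fst_add, Prod.snd_add]; omega
      · rw [hca]; simp only [Prod.fst_add, Prod.snd_add, half]; omega
      · rw [hca]; simp only [Prod.fst_add, Prod.snd_add, half]; omega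
    obtain ⟨-, -, h3⟩ := hB P Γ o D _ (by omega) (by omega) m1 s1
    rw [(MonoidHom.mem_ker).1 hz, inv_one, one_mul, mul_one, ← e1] at h3
    exact mul_inv_eq_iff_eq_mul.1 h3

end Vale.Agent.P196.Flux.Grid
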